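import Mathlib

namespace Vale.Agent.P090

open FreeGroup

section
variable {α : Type*} [DecidableEq α]

lemma norm_mk_of_isReduced {L : List (α × Bool)} (h : IsReduced L) : (mk L).norm = L.length := by
  rw [FreeGroup.norm, toWord_mk, h.reduce_eq]

lemma isReduced_of_norm_mk {L : List (α × Bool)} (h : (mk L).norm = L.length) : IsReduced L := by
  apply IsReduced.of_reduce_eq
  have h1 : (reduce L).Sublist L := Red.sublist reduce.red
  apply h1.eq_of_length
  rw [FreeGroup.norm, toWord_mk] at h
  exact h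

lemma letter_mul (a : α × Bool) (β : FreeGroup α) : mk [a] * β = mk (a :: β.toWord) := by
  conv_lhs => rw [← mk_toWord (x := β)]
  rw [mul_mk]
  rfl

lemma mul_letter (a : α × Bool) (β : FreeGroup α) : β * mk [a] = mk (β.toWord ++ [a]) := by
  conv_lhs => rw [← mk_toWord (x := β)]
  rw [mul_mk]

omit [DecidableEq α] in
lemma letter_inv (a : α × Bool) : (mk [a])⁻¹ = (mk [(a.1, !a.2)] : FreeGroup α) := by
  rw [inv_mk]
  rfl

lemma toWord_letter_mul_one (a : α × Bool) : (mk [a] * (1 : FreeGroup α)).toWord = [a] := by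
  rw [mul_one, toWord_mk, reduce_singleton]

lemma toWord_letter_mul (a : α × Bool) (β : FreeGroup α) (hd : α × Bool) (tl : List (α × Bool))
    (h : β.toWord = hd :: tl) :
    (mk [a] * β).toWord = if a.1 = hd.1 ∧ a.2 = !hd.2 then tl else a :: hd :: tl := by
  rw [letter_mul, toWord_mk, reduce.cons, reduce_toWord, h]

lemma norm_letter_mul (a : α × Bool) (β : FreeGroup α) :
    (mk [a] * β).norm = β.norm + 1 ∨ (mk [a] * β).norm + 1 = β.norm := by
  rcases hβ : β.toWord with _ | ⟨hd, tl⟩
  · left
    have : β = 1 := toWord_eq_nil_iff.1 hβ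
    subst this
    rw [FreeGroup.norm, toWord_letter_mul_one, FreeGroup.norm_one]
    rfl
  · have h := toWord_letter_mul a β hd tl hβ
    rw [FreeGroup.norm, FreeGroup.norm, h, hβ]
    split_ifs
    · right; simp
    · left; simp

lemma norm_letter_mul_lt_iff (a : α × Bool) (β : FreeGroup α) (hd : α × Bool)
    (tl : List (α × Bool)) (h : β.toWord = hd :: tl) :
    (mk [a] * β).norm < β.norm ↔ a = (hd.1, !hd.2) := by
  have h' := toWord_letter_mul a β hd tl h
  rw [FreeGroup.norm, FreeGroup.norm, h', h]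
  constructor
  · intro hlt
    split_ifs at hlt with hc
    · exact Prod.ext hc.1 hc.2
    · simp at hlt
  · rintro rfl
    simp

lemma isReduced_cons_of_norm {a : α × Bool} {β : FreeGroup α}
    (h : β.norm ≤ (mk [a] * β).norm) : IsReduced (a :: β.toWord) := by
  apply isReduced_of_norm_mk
  rw [← letter_mul]
  rcases norm_letter_mul a β with h1 | h1
  · rw [h1, List.length_cons]; rfl
  · omega

lemma norm_mul_letter (a : α × Bool) (β : FreeGroup α) :
    (β * mk [a]).norm = β.norm + 1 ∨ (β * mk [a]).norm + 1 = β.norm := by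
  have h := norm_letter_mul (a.1, !a.2) β⁻¹
  have h2 : mk [(a.1, !a.2)] * β⁻¹ = (β * mk [a])⁻¹ := by
    rw [mul_inv_rev, letter_inv]
  rw [h2, norm_inv_eq, norm_inv_eq] at h
  exact h

lemma isReduced_append_of_norm {a : α × Bool} {β : FreeGroup α}
    (h : β.norm ≤ (β * mk [a]).norm) : IsReduced (β.toWord ++ [a]) := by
  apply isReduced_of_norm_mk
  rw [← mul_letter]
  rcases norm_mul_letter a β with h1 | h1
  · rw [h1, List.length_append]; rfl
  · omega

lemma finite_norm_le [Finite α] (R : ℕ) : {w : FreeGroup α | w.norm ≤ R}.Finite := by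
  have h := List.finite_length_le (α × Bool) R
  refine Set.Finite.of_finite_image (f := toWord) (h.subset ?_) toWord_injective.injOn
  rintro _ ⟨w, hw, rfl⟩
  exact hw

lemma exists_pow_norm_ge [Finite α] {γ : FreeGroup α} (hγ : γ ≠ 1) (R : ℕ) :
    ∃ N : ℕ, R ≤ (γ ^ N).norm := by
  by_contra hcon
  push Not at hcon
  have hinj : Function.Injective (fun N : ℕ => γ ^ N) := by
    rw [injective_pow_iff_not_isOfFinOrder]
    exact not_isOfFinOrder_of_isMulTorsionFree hγ
  have hfin : (Set.range (fun N : ℕ => γ ^ N)).Finite := by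
    refine (finite_norm_le R).subset ?_
    rintro _ ⟨N, rfl⟩
    exact (hcon N).le
  exact Set.infinite_range_of_injective hinj hfin

end

noncomputable def kap (i : ℕ) : ℝ := 1 / 2 - (1 / 4) * (1 / 3) ^ i

lemma kap_zero : kap 0 = 1 / 4 := by norm_num [kap]

lemma kap_succ (i : ℕ) : 3 * kap (i + 1) - kap i = 1 := by
  unfold kap
  rw [pow_succ]
  ring

lemma kap_nonneg (i : ℕ) : 0 ≤ kap i := by
  have : (1 / 3 : ℝ) ^ i ≤ 1 := pow_le_one₀ (by norm_num) (by norm_num)
  unfold kap
  linarith

lemma kap_le (i : ℕ) : kap i ≤ 1 / 2 := by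
  have : (0 : ℝ) ≤ (1 / 3 : ℝ) ^ i := by positivity
  unfold kap
  linarith

noncomputable def kk (e : Fin 2 × Bool) (β : FreeGroup (Fin 2)) : ℝ :=
  if (mk [e] * β).norm < β.norm then - kap (β.norm - 1) else kap β.norm

lemma abs_kk_le (e : Fin 2 × Bool) (β : FreeGroup (Fin 2)) : |kk e β| ≤ 1 / 2 := by
  unfold kk
  split_ifs
  · rw [abs_neg, abs_of_nonneg (kap_nonneg _)]; exact kap_le _
  · rw [abs_of_nonneg (kap_nonneg _)]; exact kap_le _

lemma kk_antisymm (e : Fin 2 × Bool) (β : FreeGroup (Fin 2)) :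
    kk (e.1, !e.2) (mk [e] * β) = - kk e β := by
  have h0 : mk [(e.1, !e.2)] * (mk [e] * β) = β := by
    rw [← letter_inv, inv_mul_cancel_left]
  unfold kk
  rw [h0]
  rcases norm_letter_mul e β with h | h
  · rw [if_pos (by omega), if_neg (by omega), h]
    simp
  · rw [if_neg (by omega), if_pos (by omega), neg_neg, ← h]
    simp

lemma sum_kk (β : FreeGroup (Fin 2)) : ∑ e : Fin 2 × Bool, kk e β = 1 := by
  rcases hβ : β.toWord with _ | ⟨hd, tl⟩
  · have : β = 1 := toWord_eq_nil_iff.1 hβ
    subst this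
    have : ∀ e : Fin 2 × Bool, kk e 1 = 1 / 4 := by
      intro e
      unfold kk
      rw [FreeGroup.norm_one, if_neg (by omega), kap_zero]
    simp only [this]
    simp
  · have hn : β.norm = tl.length + 1 := by rw [FreeGroup.norm, hβ]; rfl
    have h1 : ∀ e : Fin 2 × Bool, kk e β =
        (if e = (hd.1, !hd.2) then (- kap tl.length - kap (tl.length + 1)) else 0)
          + kap (tl.length + 1) := by
      intro e
      have h2 := norm_letter_mul_lt_iff e β hd tl hβ
      unfold kk
      by_cases he : e = (hd.1, !hd.2)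
      · rw [if_pos (h2.2 he), if_pos he, hn]
        simp
      · rw [if_neg (fun h => he (h2.1 h)), if_neg he, hn]
        simp
    simp only [h1]
    rw [Finset.sum_add_distrib, Finset.sum_ite_eq' Finset.univ]
    simp only [Finset.mem_univ, if_true, Finset.sum_const, Finset.card_univ]
    have := kap_succ tl.length
    simp
    linarith

end Vale.Agent.P090
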