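import Mathlib
import Vale.Agent.P090.Words

namespace Vale.Agent.P090

open FreeGroup (mk of IsReduced)

abbrev GG : Type := FreeGroup (Fin 2)
abbrev FF : Type := FreeGroup (Fin 2 × Fin 8)

structure Coc (Y : Type) [MulAction GG Y] where
  lam : GG → Y → FF
  lam_mul : ∀ g h y, lam (g * h) y = lam g (h • y) * lam h y

namespace Coc

variable {Y : Type} [MulAction GG Y] (c : Coc Y)

lemma lam_one (y : Y) : c.lam 1 y = 1 := by
  have h := c.lam_mul 1 1 y
  rw [mul_one, one_smul] at h
  exact (mul_eq_left.1 h.symm)

lemma lam_inv (g : GG) (y : Y) : c.lam g⁻¹ (g • y) = (c.lam g y)⁻¹ := by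
  have h := c.lam_mul g⁻¹ g y
  rw [inv_mul_cancel, c.lam_one] at h
  exact eq_inv_of_mul_eq_one_left h.symm

lemma lam_pow {g : GG} {y : Y} (h : g • y = y) (N : ℕ) :
    g ^ N • y = y ∧ c.lam (g ^ N) y = c.lam g y ^ N := by
  induction N with
  | zero => exact ⟨by rw [pow_zero, one_smul], by rw [pow_zero, pow_zero, c.lam_one]⟩
  | succ N ih =>
    refine ⟨?_, ?_⟩
    · rw [pow_succ, mul_smul, h, ih.1]
    · rw [pow_succ, c.lam_mul, h, ih.2, pow_succ]

end Coc

def unitCoc [MulAction GG Unit] : Coc Unit where
  lam := fun _ _ => 1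
  lam_mul := fun _ _ _ => (mul_one 1).symm

section Colored

variable {X : Type} [MulAction GG X] (col : Fin 2 → X → Fin 8)

def cl (a : Fin 2 × Bool) (x : X) : (Fin 2 × Fin 8) × Bool :=
  ((a.1, col a.1 (if a.2 = true then x else (mk [a] : GG) • x)), a.2)

def colorWord : List (Fin 2 × Bool) → X → List ((Fin 2 × Fin 8) × Bool)
  | [], _ => []
  | a :: L, x => cl col a ((mk L : GG) • x) :: colorWord L x

def genAct (i : Fin 2) : Equiv.Perm (X × FF) where
  toFun := fun p => (of i • p.1, of (i, col i p.1) * p.2)
  invFun := fun p => ((of i)⁻¹ • p.1, (of (i, col i ((of i)⁻¹ • p.1)))⁻¹ * p.2)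
  left_inv := fun p => by
    ext <;> simp
  right_inv := fun p => by
    ext <;> simp

def actHom : GG →* Equiv.Perm (X × FF) := FreeGroup.lift (genAct col)

lemma mk_cons {α : Type*} (a : α × Bool) (L : List (α × Bool)) :
    (mk (a :: L) : FreeGroup α) = mk [a] * mk L := by
  rw [FreeGroup.mul_mk]; rfl

lemma mk_false {α : Type*} (i : α) : (mk [(i, false)] : FreeGroup α) = (of i)⁻¹ := by
  rw [of, letter_inv]; rfl

lemma mk_true {α : Type*} (i : α) : (mk [(i, true)] : FreeGroup α) = of i := rfl

lemma actHom_letter (a : Fin 2 × Bool) (x : X) (w : FF) :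
    actHom col (mk [a]) (x, w) = ((mk [a] : GG) • x, mk [cl col a x] * w) := by
  rcases a with ⟨i, b⟩
  cases b
  · have h : actHom col (mk [(i, false)]) = (genAct col i)⁻¹ := by
      rw [mk_false, map_inv, actHom, FreeGroup.lift_apply_of]
    rw [h, mk_false]
    have h2 : cl col (i, false) x = ((i, col i ((of i)⁻¹ • x)), false) := by
      unfold cl
      rw [mk_false]
      simp
    rw [h2, mk_false]
    rfl
  · have h : actHom col (mk [(i, true)]) = genAct col i := by
      rw [mk_true, actHom, FreeGroup.lift_apply_of]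
    rw [h, mk_true]
    have h2 : cl col (i, true) x = ((i, col i x), true) := by
      unfold cl
      simp
    rw [h2, mk_true]
    rfl

lemma actHom_mk (L : List (Fin 2 × Bool)) (x : X) (w : FF) :
    actHom col (mk L) (x, w) = ((mk L : GG) • x, mk (colorWord col L x) * w) := by
  induction L with
  | nil =>
    have : (mk [] : GG) = 1 := rfl
    have h2 : (mk (colorWord col [] x) : FF) = 1 := rfl
    rw [h2, this, map_one, one_smul, one_mul]
    rfl
  | cons a L ih =>
    rw [mk_cons a L, map_mul, Equiv.Perm.mul_apply, ih, actHom_letter]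
    rw [colorWord, mk_cons (cl col a _) (colorWord col L x), mul_smul, mul_assoc]

def lamc (g : GG) (x : X) : FF := mk (colorWord col g.toWord x)

lemma actHom_apply (g : GG) (x : X) (w : FF) :
    actHom col g (x, w) = (g • x, lamc col g x * w) := by
  have h := actHom_mk col g.toWord x w
  rw [FreeGroup.mk_toWord] at h
  exact h

def colCoc : Coc X where
  lam := lamc col
  lam_mul := by
    intro g h x
    have h1 := actHom_apply col (g * h) x 1
    rw [map_mul, Equiv.Perm.mul_apply, actHom_apply, actHom_apply] at h1
    have h2 := congrArg Prod.snd h1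
    simp only [mul_one] at h2
    exact h2.symm

lemma colCoc_lam (g : GG) (x : X) : (colCoc col).lam g x = mk (colorWord col g.toWord x) := rfl

lemma length_colorWord (L : List (Fin 2 × Bool)) (x : X) :
    (colorWord col L x).length = L.length := by
  induction L with
  | nil => rfl
  | cons a L ih => rw [colorWord, List.length_cons, List.length_cons, ih]

lemma map_colorWord (L : List (Fin 2 × Bool)) (x : X) :
    (colorWord col L x).map (fun a => (a.1.1, a.2)) = L := by
  induction L with
  | nil => rfl
  | cons a L ih => rw [colorWord, List.map_cons, ih]; rfl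

lemma colorWord_append (L L' : List (Fin 2 × Bool)) (x : X) :
    colorWord col (L ++ L') x = colorWord col L ((mk L' : GG) • x) ++ colorWord col L' x := by
  induction L with
  | nil => rfl
  | cons a L ih =>
    have h : (mk (L ++ L') : GG) • x = (mk L : GG) • (mk L' : GG) • x := by
      rw [← mul_smul, FreeGroup.mul_mk]
    rw [List.cons_append, colorWord, colorWord, ih, List.cons_append, h]

lemma isReduced_colorWord {L : List (Fin 2 × Bool)} (h : IsReduced L) (x : X) :
    IsReduced (colorWord col L x) := by
  induction L with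
  | nil => exact IsReduced.nil
  | cons a L ih =>
    rcases L with _ | ⟨b, L⟩
    · exact IsReduced.singleton
    · rw [colorWord, colorWord, FreeGroup.isReduced_cons_cons]
      rw [FreeGroup.isReduced_cons_cons] at h
      refine ⟨fun heq => ?_, ih h.2⟩
      apply h.1
      have h5 : ((cl col a ((mk (b :: L) : GG) • x)).1).1 = ((cl col b ((mk L : GG) • x)).1).1 :=
        congrArg Prod.fst heq
      exact h5

lemma toWord_lam (g : GG) (x : X) :
    ((colCoc col).lam g x).toWord = colorWord col g.toWord x := by
  rw [colCoc_lam, FreeGroup.toWord_mk]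
  exact (isReduced_colorWord col FreeGroup.isReduced_toWord x).reduce_eq

lemma norm_lam (g : GG) (x : X) : ((colCoc col).lam g x).norm = g.norm := by
  rw [FreeGroup.norm, toWord_lam, length_colorWord]; rfl

lemma pr_lam (g : GG) (x : X) : FreeGroup.map Prod.fst ((colCoc col).lam g x) = g := by
  rw [colCoc_lam, FreeGroup.map.mk]
  have := map_colorWord col g.toWord x
  have h2 : (colorWord col g.toWord x).map (fun a => (Prod.fst a.1, a.2)) = g.toWord := this
  rw [h2, FreeGroup.mk_toWord]

lemma lam_letter (a : Fin 2 × Bool) (x : X) :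
    (colCoc col).lam (mk [a]) x = mk [cl col a x] := by
  rw [colCoc_lam, FreeGroup.toWord_mk, FreeGroup.reduce_singleton]
  have : (mk [] : GG) • x = x := one_smul _ x
  rw [colorWord, this]
  rfl

end Colored

end Vale.Agent.P090
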