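import Mathlib
import Vale.Agent.P090.Coc

namespace Vale.Agent.P090

open FreeGroup (mk of IsReduced)

lemma exists_beta {H G Ω : Type} [Group H] [Group G] [MulAction H Ω] (π : H →* G) :
    ∃ β : Ω → G, ∀ ω : Ω, (∀ h : H, h • ω = ω → π h = 1) → ∀ h : H, β (h • ω) = π h * β ω := by
  classical
  have hrep : ∀ ω : Ω, ∃ h : H,
      h • (Quotient.out (Quotient.mk (MulAction.orbitRel H Ω) ω) : Ω) = ω := by
    intro ω
    have h1 : (MulAction.orbitRel H Ω).r
        (Quotient.out (Quotient.mk (MulAction.orbitRel H Ω) ω)) ω :=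
      Quotient.exact (Quotient.out_eq _)
    have h2 := (MulAction.orbitRel H Ω).symm h1
    exact h2
  choose g hg using hrep
  refine ⟨fun ω => π (g ω), fun ω hω h => ?_⟩
  have hq : (Quotient.mk (MulAction.orbitRel H Ω) (h • ω)) =
      (Quotient.mk (MulAction.orbitRel H Ω) ω) := by
    apply Quotient.sound
    exact ⟨h, rfl⟩
  have h1 := hg (h • ω)
  rw [hq] at h1
  have h2 := hg ω
  set r : Ω := Quotient.out (Quotient.mk (MulAction.orbitRel H Ω) ω) with hr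
  have h3 : ((g ω * (g (h • ω))⁻¹ * h) • ω : Ω) = ω := by
    rw [mul_smul, mul_smul]
    nth_rewrite 2 [← h1]
    rw [inv_smul_smul, h2]
  have h4 := hω _ h3
  rw [map_mul, map_mul, map_inv] at h4
  have h5 : π (g ω) * (π (g (h • ω)))⁻¹ = (π h)⁻¹ := eq_inv_of_mul_eq_one_left h4
  have h6 : π (g (h • ω)) * (π (g ω))⁻¹ = π h := by
    rw [← inv_inj, mul_inv_rev, inv_inv]
    exact h5
  exact (mul_inv_eq_iff_eq_mul.1 h6)

section

variable {X Y : Type} [MulAction GG X] [MulAction GG Y]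

def Om (_ : Coc X) (_ : Coc Y) : Type := X × Y × FF

variable (cX : Coc X) (cY : Coc Y)

instance : MulAction (GG × GG) (Om cX cY) where
  smul h ω := (h.1 • ω.1, h.2 • ω.2.1, cX.lam h.1 ω.1 * ω.2.2 * (cY.lam h.2 ω.2.1)⁻¹)
  one_smul := by
    rintro ⟨x, y, w⟩
    change ((1 : GG) • x, (1 : GG) • y, cX.lam 1 x * w * (cY.lam 1 y)⁻¹) = (x, y, w)
    rw [one_smul, one_smul, cX.lam_one, cY.lam_one, inv_one, mul_one, one_mul]
  mul_smul := by
    rintro ⟨g, g'⟩ ⟨h, h'⟩ ⟨x, y, w⟩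
    change ((g * h) • x, (g' * h') • y, cX.lam (g * h) x * w * (cY.lam (g' * h') y)⁻¹) =
      (g • h • x, g' • h' • y,
        cX.lam g (h • x) * (cX.lam h x * w * (cY.lam h' y)⁻¹) * (cY.lam g' (h' • y))⁻¹)
    rw [mul_smul, mul_smul, cX.lam_mul, cY.lam_mul, mul_inv_rev]
    simp only [mul_assoc]

def omk (x : X) (y : Y) (w : FF) : Om cX cY := (x, y, w)

lemma smul_Om (g g' : GG) (x : X) (y : Y) (w : FF) :
    (g, g') • omk cX cY x y w =
      omk cX cY (g • x) (g' • y) (cX.lam g x * w * (cY.lam g' y)⁻¹) := rfl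

lemma omk_inj {x x' : X} {y y' : Y} {w w' : FF} :
    omk cX cY x y w = omk cX cY x' y' w' ↔ x = x' ∧ y = y' ∧ w = w' := by
  constructor
  · intro h
    have h' : ((x, y, w) : X × Y × FF) = (x', y', w') := h
    rw [Prod.mk.injEq, Prod.mk.injEq] at h'
    exact h'
  · rintro ⟨rfl, rfl, rfl⟩
    rfl

def Bad (x : X) (y : Y) (w : FF) : Prop :=
  ∃ γ γ' : GG, γ ≠ 1 ∧ γ • x = x ∧ γ' • y = y ∧ cX.lam γ x * w = w * cY.lam γ' y

lemma bad_iff (x : X) (y : Y) (w : FF) :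
    ¬ Bad cX cY x y w ↔
      ∀ h : GG × GG, h • omk cX cY x y w = omk cX cY x y w → MonoidHom.fst GG GG h = 1 := by
  constructor
  · rintro hb ⟨γ, γ'⟩ h
    rw [smul_Om, omk_inj] at h
    by_contra hne
    exact hb ⟨γ, γ', hne, h.1, h.2.1, mul_inv_eq_iff_eq_mul.1 h.2.2⟩
  · rintro hb ⟨γ, γ', hne, h1, h2, h3⟩
    apply hne
    have h4 := hb (γ, γ')
    apply h4
    rw [smul_Om, omk_inj]
    exact ⟨h1, h2, mul_inv_eq_iff_eq_mul.2 h3⟩

lemma bad_smul (g g' : GG) (x : X) (y : Y) (w : FF) (h : Bad cX cY x y w) :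
    Bad cX cY (g • x) (g' • y) (cX.lam g x * w * (cY.lam g' y)⁻¹) := by
  obtain ⟨γ, γ', h0, h1, h2, h3⟩ := h
  refine ⟨g * γ * g⁻¹, g' * γ' * g'⁻¹, ?_, ?_, ?_, ?_⟩
  · intro hcon
    apply h0
    have : g * γ = g := by
      rw [mul_inv_eq_one] at hcon
      exact hcon
    exact mul_eq_left.1 this
  · rw [mul_smul, mul_smul, inv_smul_smul, h1]
  · rw [mul_smul, mul_smul, inv_smul_smul, h2]
  · have e1 : cX.lam (g * γ * g⁻¹) (g • x) = cX.lam g x * cX.lam γ x * (cX.lam g x)⁻¹ := by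
      rw [cX.lam_mul, inv_smul_smul, cX.lam_mul, h1, cX.lam_inv]
    have e2 : cY.lam (g' * γ' * g'⁻¹) (g' • y) = cY.lam g' y * cY.lam γ' y * (cY.lam g' y)⁻¹ := by
      rw [cY.lam_mul, inv_smul_smul, cY.lam_mul, h2, cY.lam_inv]
    rw [e1, e2]
    calc cX.lam g x * cX.lam γ x * (cX.lam g x)⁻¹ * (cX.lam g x * w * (cY.lam g' y)⁻¹)
        = cX.lam g x * (cX.lam γ x * w) * (cY.lam g' y)⁻¹ := by group
      _ = cX.lam g x * (w * cY.lam γ' y) * (cY.lam g' y)⁻¹ := by rw [h3]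
      _ = _ := by group

lemma bad_smul_iff (g g' : GG) (x : X) (y : Y) (w : FF) :
    Bad cX cY (g • x) (g' • y) (cX.lam g x * w * (cY.lam g' y)⁻¹) ↔ Bad cX cY x y w := by
  constructor
  · intro h
    have h1 := bad_smul cX cY g⁻¹ g'⁻¹ _ _ _ h
    rw [inv_smul_smul, inv_smul_smul, cX.lam_inv, cY.lam_inv] at h1
    have : (cX.lam g x)⁻¹ * (cX.lam g x * w * (cY.lam g' y)⁻¹) * ((cY.lam g' y)⁻¹)⁻¹ = w := by
      group
    rw [this] at h1
    exact h1
  · exact bad_smul cX cY g g' x y w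

noncomputable def beta : Om cX cY → GG := Classical.choose
  (exists_beta (H := GG × GG) (G := GG) (Ω := Om cX cY) (MonoidHom.fst GG GG))

lemma beta_smul (g g' : GG) (x : X) (y : Y) (w : FF) (h : ¬ Bad cX cY x y w) :
    beta cX cY (omk cX cY (g • x) (g' • y) (cX.lam g x * w * (cY.lam g' y)⁻¹)) =
      g * beta cX cY (omk cX cY x y w) :=
  Classical.choose_spec
    (exists_beta (H := GG × GG) (G := GG) (Ω := Om cX cY) (MonoidHom.fst GG GG))
    (omk cX cY x y w) ((bad_iff cX cY x y w).1 h) (g, g')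

open Classical in
noncomputable def KK (e : Fin 2 × Bool) (x : X) (y : Y) (w : FF) : ℝ :=
  if Bad cX cY x y w then 0 else kk e (beta cX cY (omk cX cY x y w))

lemma abs_KK_le (e : Fin 2 × Bool) (x : X) (y : Y) (w : FF) : |KK cX cY e x y w| ≤ 1 / 2 := by
  unfold KK
  split_ifs
  · norm_num
  · exact abs_kk_le _ _

lemma sum_KK (x : X) (y : Y) (w : FF) (h : ¬ Bad cX cY x y w) :
    ∑ e : Fin 2 × Bool, KK cX cY e x y w = 1 := by
  unfold KK
  simp only [h, if_false]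
  exact sum_kk _

lemma KK_left (e : Fin 2 × Bool) (x : X) (y : Y) (w : FF) :
    KK cX cY (e.1, !e.2) ((mk [e] : GG) • x) y (cX.lam (mk [e]) x * w) =
      - KK cX cY e x y w := by
  have h1 := bad_smul_iff cX cY (mk [e]) 1 x y w
  rw [one_smul, cY.lam_one, inv_one, mul_one] at h1
  unfold KK
  by_cases hb : Bad cX cY x y w
  · rw [if_pos hb, if_pos (h1.2 hb), neg_zero]
  · rw [if_neg hb, if_neg (fun h => hb (h1.1 h))]
    have h2 := beta_smul cX cY (mk [e]) 1 x y w hb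
    rw [one_smul, cY.lam_one, inv_one, mul_one] at h2
    rw [h2, kk_antisymm]

lemma KK_right (e e' : Fin 2 × Bool) (x : X) (y : Y) (w : FF) :
    KK cX cY e x ((mk [e'] : GG) • y) (w * (cY.lam (mk [e']) y)⁻¹) =
      KK cX cY e x y w := by
  have h1 := bad_smul_iff cX cY 1 (mk [e']) x y w
  rw [one_smul, cX.lam_one, one_mul] at h1
  unfold KK
  by_cases hb : Bad cX cY x y w
  · rw [if_pos hb, if_pos (h1.2 hb)]
  · rw [if_neg hb, if_neg (fun h => hb (h1.1 h))]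
    have h2 := beta_smul cX cY 1 (mk [e']) x y w hb
    rw [one_smul, cX.lam_one, one_mul, one_mul] at h2
    rw [h2]

end

end Vale.Agent.P090
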