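import Mathlib
import Vale.Agent.P090.Beta

namespace Vale.Agent.P090

open FreeGroup (mk of IsReduced)

variable {X Y : Type} [MulAction GG X] [MulAction GG Y]
variable (colX : Fin 2 → X → Fin 8) (colY : Fin 2 → Y → Fin 8)

lemma left_reduced (x : X) (w : FF) (hw : w ≠ 1)
    (h : ∀ e : Fin 2 × Bool, w.norm ≤ ((colCoc colX).lam (mk [e]) x * w).norm) (γ : GG) :
    IsReduced (colorWord colX γ.toWord x ++ w.toWord) := by
  rcases List.eq_nil_or_concat γ.toWord with h0 | ⟨L, a, h0⟩
  · rw [h0]
    exact FreeGroup.isReduced_toWord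
  · have h1 : colorWord colX γ.toWord x =
        colorWord colX L ((mk [a] : GG) • x) ++ [cl colX a x] := by
      rw [h0, List.concat_eq_append, colorWord_append]
      congr 1
      rw [colorWord]
      have : (mk [] : GG) • x = x := one_smul _ x
      rw [this]
      rfl
    have h2 : IsReduced (colorWord colX γ.toWord x) :=
      isReduced_colorWord colX FreeGroup.isReduced_toWord x
    rw [h1] at h2 ⊢
    have h3 : IsReduced ([cl colX a x] ++ w.toWord) := by
      apply isReduced_cons_of_norm
      have := h a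
      rwa [lam_letter] at this
    exact h2.append_overlap h3 (by simp)

lemma right_reduced (y : Y) (w : FF) (hw : w ≠ 1)
    (h : ∀ e : Fin 2 × Bool, w.norm ≤ (w * ((colCoc colY).lam (mk [e]) y)⁻¹).norm) (γ : GG) :
    IsReduced (w.toWord ++ FreeGroup.invRev (colorWord colY γ.toWord y)) := by
  rcases List.eq_nil_or_concat γ.toWord with h0 | ⟨L, a, h0⟩
  · rw [h0, colorWord, FreeGroup.invRev_empty, List.append_nil]
    exact FreeGroup.isReduced_toWord
  · have h1 : colorWord colY γ.toWord y =
        colorWord colY L ((mk [a] : GG) • y) ++ [cl colY a y] := by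
      rw [h0, List.concat_eq_append, colorWord_append]
      congr 1
      rw [colorWord]
      have : (mk [] : GG) • y = y := one_smul _ y
      rw [this]
      rfl
    have h2 : IsReduced (FreeGroup.invRev (colorWord colY γ.toWord y)) := by
      have h5 : ((colCoc colY).lam γ y)⁻¹.toWord =
          FreeGroup.invRev (colorWord colY γ.toWord y) := by
        rw [FreeGroup.toWord_inv, toWord_lam]
      rw [← h5]
      exact FreeGroup.isReduced_toWord
    rw [h1, FreeGroup.invRev_append] at h2 ⊢
    have h6 : FreeGroup.invRev [cl colY a y] = [((cl colY a y).1, !(cl colY a y).2)] := rfl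
    have h3 : IsReduced (w.toWord ++ FreeGroup.invRev [cl colY a y]) := by
      rw [h6]
      apply isReduced_append_of_norm
      have := h a
      rwa [lam_letter, letter_inv] at this
    rw [← List.append_assoc]
    exact h3.append_overlap h2 (by rw [h6]; simp)

lemma not_bad_of_tight (x : X) (y : Y) (w : FF) (hw : w ≠ 1)
    (h : ∀ e : Fin 2 × Bool, w.norm ≤ ((colCoc colX).lam (mk [e]) x * w).norm)
    (h' : ∀ e : Fin 2 × Bool, w.norm ≤ (w * ((colCoc colY).lam (mk [e]) y)⁻¹).norm) :
    ¬ Bad (colCoc colX) (colCoc colY) x y w := by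
  rintro ⟨γ, γ', hγ, -, -, heq⟩
  have h1 := left_reduced colX x w hw h γ
  have h2 := right_reduced colY y w hw h' γ'
  have h3 := h1.append_overlap h2 (by
    intro hcon
    exact hw (FreeGroup.toWord_eq_nil_iff.1 hcon))
  have h4 := norm_mk_of_isReduced h3
  have h5 : (mk (colorWord colX γ.toWord x ++ w.toWord ++
      FreeGroup.invRev (colorWord colY γ'.toWord y)) : FF) = w := by
    rw [← FreeGroup.mul_mk, ← FreeGroup.mul_mk, ← FreeGroup.inv_mk, FreeGroup.mk_toWord]
    rw [mul_inv_eq_iff_eq_mul]
    exact heq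
  rw [h5, List.length_append, List.length_append, length_colorWord] at h4
  have h6 : γ.norm = 0 := by
    change γ.toWord.length = 0
    change w.toWord.length = _ at h4
    omega
  exact hγ (FreeGroup.norm_eq_zero.1 h6)

lemma bad_peel (n : ℕ) : ∀ (x : X) (y : Y) (w : FF), w.norm ≤ n →
    Bad (colCoc colX) (colCoc colY) x y w →
    ∃ (κ : GG) (y₁ : Y), κ.norm ≤ n ∧ Bad (colCoc colX) (colCoc colY) (κ • x) y₁ 1 := by
  induction n with
  | zero =>
    intro x y w hw hb
    have hw1 : w = 1 := FreeGroup.norm_eq_zero.1 (Nat.le_zero.1 hw)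
    subst hw1
    exact ⟨1, y, by simp, by rwa [one_smul]⟩
  | succ n ih =>
    intro x y w hw hb
    by_cases hw1 : w = 1
    · subst hw1
      exact ⟨1, y, by simp, by rwa [one_smul]⟩
    by_cases h1 : ∀ e : Fin 2 × Bool, w.norm ≤ ((colCoc colX).lam (mk [e]) x * w).norm
    · by_cases h2 : ∀ e : Fin 2 × Bool, w.norm ≤ (w * ((colCoc colY).lam (mk [e]) y)⁻¹).norm
      · exact absurd hb (not_bad_of_tight colX colY x y w hw1 h1 h2)
      · push Not at h2
        obtain ⟨e, he⟩ := h2
        have hb' := bad_smul (colCoc colX) (colCoc colY) 1 (mk [e]) x y w hb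
        rw [one_smul, Coc.lam_one, one_mul] at hb'
        obtain ⟨κ, y₁, hκ, hb1⟩ := ih x _ _ (by omega) hb'
        exact ⟨κ, y₁, by omega, hb1⟩
    · push Not at h1
      obtain ⟨e, he⟩ := h1
      have hb' := bad_smul (colCoc colX) (colCoc colY) (mk [e]) 1 x y w hb
      rw [one_smul, Coc.lam_one, inv_one, mul_one] at hb'
      obtain ⟨κ, y₁, hκ, hb1⟩ := ih _ y _ (by omega) hb'
      refine ⟨κ * mk [e], y₁, ?_, by rwa [mul_smul]⟩
      refine (FreeGroup.norm_mul_le _ _).trans ?_
      have : (mk [e] : GG).norm ≤ 1 := FreeGroup.norm_mk_le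
      omega

lemma bad_one_long (x : X) (y : Y) (hb : Bad (colCoc colX) (colCoc colY) x y 1) (R : ℕ) :
    ∃ L : List (Fin 2 × Bool), L.length = R ∧ IsReduced L ∧
      colorWord colX L x = colorWord colY L y := by
  obtain ⟨γ, γ', hγ, hx, hy, heq⟩ := hb
  rw [mul_one, one_mul] at heq
  have hγγ : γ = γ' := by
    have := congrArg (FreeGroup.map Prod.fst) heq
    rwa [pr_lam, pr_lam] at this
  subst hγγ
  obtain ⟨N, hN⟩ := exists_pow_norm_ge hγ R
  have h1 := ((colCoc colX).lam_pow hx N).2
  have h2 := ((colCoc colY).lam_pow hy N).2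
  rw [heq, ← h2] at h1
  have h3 := congrArg FreeGroup.toWord h1
  rw [toWord_lam, toWord_lam] at h3
  set L := (γ ^ N).toWord with hL
  have hLR : R ≤ L.length := hN
  have hLr : IsReduced L := FreeGroup.isReduced_toWord
  have hsplit : L = L.take (L.length - R) ++ L.drop (L.length - R) := (List.take_append_drop _ _).symm
  refine ⟨L.drop (L.length - R), ?_, ?_, ?_⟩
  · rw [List.length_drop]; omega
  · exact List.IsChain.drop hLr _
  · rw [hsplit, colorWord_append, colorWord_append] at h3
    exact (List.append_inj' h3 (by rw [length_colorWord, length_colorWord])).2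

end Vale.Agent.P090
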