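import Mathlib

namespace Vale.Agent.P090

open scoped NNReal

def lipschitzVanishing (M : Type*) [MetricSpace M] (o : M) : Submodule ℝ (M → ℝ) where
  carrier := {f | f o = 0 ∧ ∃ K : ℝ≥0, LipschitzWith K f}
  add_mem' := by
    rintro f g ⟨hf, K, hK⟩ ⟨hg, L, hL⟩
    exact ⟨by simp [hf, hg], K + L, hK.add hL⟩
  zero_mem' := ⟨rfl, 0, LipschitzWith.const 0⟩
  smul_mem' := by
    rintro c f ⟨hf, K, hK⟩
    refine ⟨by simp [hf], ‖c‖₊ * K, ?_⟩
    exact (lipschitzWith_smul c).comp hK

def Lip0 (M : Type*) [MetricSpace M] (o : M) : Type _ := lipschitzVanishing M o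

variable {M : Type*} [MetricSpace M] {o : M}

instance : AddCommGroup (Lip0 M o) := inferInstanceAs (AddCommGroup (lipschitzVanishing M o))

instance : Module ℝ (Lip0 M o) := inferInstanceAs (Module ℝ (lipschitzVanishing M o))

instance : CoeFun (Lip0 M o) (fun _ => M → ℝ) := ⟨fun f => f.1⟩

noncomputable instance : Norm (Lip0 M o) :=
  ⟨fun f => sInf {K : ℝ | 0 ≤ K ∧ ∀ x y, |f x - f y| ≤ K * dist x y}⟩

namespace Lip0

lemma add_apply (f g : Lip0 M o) (x : M) : (f + g) x = f x + g x := rfl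
lemma sub_apply (f g : Lip0 M o) (x : M) : (f - g) x = f x - g x := rfl
lemma neg_apply (f : Lip0 M o) (x : M) : (-f) x = -f x := rfl
lemma zero_apply (x : M) : (0 : Lip0 M o) x = 0 := rfl
lemma smul_apply (c : ℝ) (f : Lip0 M o) (x : M) : (c • f) x = c * f x := rfl

lemma base (f : Lip0 M o) : f o = 0 := f.2.1

@[ext] lemma ext {f g : Lip0 M o} (h : ∀ x, f x = g x) : f = g := Subtype.ext (funext h)

lemma norm_def (f : Lip0 M o) :
    ‖f‖ = sInf {K : ℝ | 0 ≤ K ∧ ∀ x y, |f x - f y| ≤ K * dist x y} := rfl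

lemma bddBelow_set (f : Lip0 M o) :
    BddBelow {K : ℝ | 0 ≤ K ∧ ∀ x y, |f x - f y| ≤ K * dist x y} :=
  ⟨0, fun _ hK => hK.1⟩

lemma set_nonempty (f : Lip0 M o) :
    {K : ℝ | 0 ≤ K ∧ ∀ x y, |f x - f y| ≤ K * dist x y}.Nonempty := by
  obtain ⟨K, hK⟩ := f.2.2
  refine ⟨K, K.2, fun x y => ?_⟩
  have := hK.dist_le_mul x y
  rwa [Real.dist_eq] at this

lemma norm_nonneg' (f : Lip0 M o) : 0 ≤ ‖f‖ :=
  le_csInf f.set_nonempty fun _ hK => hK.1

lemma norm_le_of (f : Lip0 M o) {K : ℝ} (hK : 0 ≤ K)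
    (h : ∀ x y, |f x - f y| ≤ K * dist x y) : ‖f‖ ≤ K :=
  csInf_le f.bddBelow_set ⟨hK, h⟩

lemma abs_sub_le (f : Lip0 M o) (x y : M) : |f x - f y| ≤ ‖f‖ * dist x y := by
  rcases (dist_nonneg (x := x) (y := y)).eq_or_lt with h | h
  · have hxy : x = y := dist_eq_zero.1 h.symm
    subst hxy
    simp
  · rw [← div_le_iff₀ h]
    refine le_csInf f.set_nonempty fun K hK => ?_
    rw [div_le_iff₀ h]
    exact hK.2 x y

lemma core : NormedSpace.Core ℝ (Lip0 M o) where
  norm_nonneg := norm_nonneg'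
  norm_smul := by
    intro c f
    apply le_antisymm
    · refine norm_le_of _ (mul_nonneg (norm_nonneg c) f.norm_nonneg') fun x y => ?_
      rw [smul_apply, smul_apply, ← mul_sub, abs_mul, Real.norm_eq_abs, mul_assoc]
      exact mul_le_mul_of_nonneg_left (f.abs_sub_le x y) (abs_nonneg c)
    · rcases eq_or_ne c 0 with rfl | hc
      · simp [norm_nonneg']
      · have hc' : 0 < ‖c‖ := norm_pos_iff.2 hc
        rw [← le_div_iff₀' hc']
        refine norm_le_of _ (div_nonneg (norm_nonneg' _) hc'.le) fun x y => ?_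
        have h1 := (c • f).abs_sub_le x y
        rw [smul_apply, smul_apply, ← mul_sub, abs_mul, ← Real.norm_eq_abs c] at h1
        rw [div_mul_eq_mul_div, le_div_iff₀' hc']
        exact h1
  norm_triangle := by
    intro f g
    refine norm_le_of _ (add_nonneg f.norm_nonneg' g.norm_nonneg') fun x y => ?_
    rw [add_apply, add_apply, add_mul]
    calc |f x + g x - (f y + g y)| = |(f x - f y) + (g x - g y)| := by ring_nf
      _ ≤ |f x - f y| + |g x - g y| := abs_add_le _ _
      _ ≤ _ := add_le_add (f.abs_sub_le x y) (g.abs_sub_le x y)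
  norm_eq_zero_iff := by
    intro f
    constructor
    · intro h
      ext x
      have := f.abs_sub_le x o
      rw [h, zero_mul, f.base, sub_zero] at this
      rw [zero_apply]
      exact abs_nonpos_iff.1 this
    · rintro rfl
      refine le_antisymm (norm_le_of _ le_rfl fun x y => ?_) (norm_nonneg' _)
      simp [zero_apply]

end Lip0

noncomputable instance : NormedAddCommGroup (Lip0 M o) := NormedAddCommGroup.ofCore Lip0.core

noncomputable instance : NormedSpace ℝ (Lip0 M o) := NormedSpace.ofCore Lip0.core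

noncomputable def evalAt (o x : M) : StrongDual ℝ (Lip0 M o) :=
  LinearMap.mkContinuous
    { toFun := fun f => f x
      map_add' := fun _ _ => rfl
      map_smul' := fun _ _ => rfl } (dist x o) (by
    intro f
    have := f.abs_sub_le x o
    rw [f.base, sub_zero, mul_comm] at this
    exact this)

noncomputable def LipschitzFree (M : Type*) [MetricSpace M] (o : M) :
    Submodule ℝ (StrongDual ℝ (Lip0 M o)) :=
  (Submodule.span ℝ (Set.range (evalAt o))).topologicalClosure

def UniformlyDiscrete (M : Type*) [MetricSpace M] : Prop :=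
  ∃ c : ℝ, 0 < c ∧ ∀ x y : M, x ≠ y → c ≤ dist x y

def HasBAPWith (X : Type*) [NormedAddCommGroup X] [NormedSpace ℝ X] (lam : ℝ) : Prop :=
  ∀ C : Set X, IsCompact C → ∀ ε : ℝ, 0 < ε →
    ∃ T : X →L[ℝ] X, FiniteDimensional ℝ T.range ∧ ‖T‖ ≤ lam ∧ ∀ u ∈ C, ‖T u - u‖ < ε

def HasBAP (X : Type*) [NormedAddCommGroup X] [NormedSpace ℝ X] : Prop :=
  ∃ lam : ℝ, 1 ≤ lam ∧ HasBAPWith X lam

end Vale.Agent.P090
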