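import Mathlib
import Vale.Agent.P090.Defs

namespace Vale.Agent.P090

structure Cert {M : Type} [MetricSpace M] (P S : Set M) {A : Type} (anc : A → M)
    (R s η : ℝ) : Type 1 where
  V : Type
  fin : Fintype V
  ne : Nonempty V
  pt : V → M
  an : V → A
  st : (Fin 2 × Bool) → V → V
  st_st : ∀ e v, st (e.1, !e.2) (st e v) = v
  pt_mem : ∀ v, pt v ∈ P
  dist_st : ∀ e v, dist (pt v) (pt (st e v)) ≤ 1
  dist_an : ∀ v, dist (pt v) (anc (an v)) ≤ R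
  anc_mem : ∀ a, anc a ∈ S
  F : V → (Fin 2 × Bool) → M → ℝ
  F_anti : ∀ v e p, F (st e v) (e.1, !e.2) p = - F v e p
  F_lip : ∀ v e p q, |F v e p - F v e q| ≤ (1 / R) * dist p q
  F_val : ∀ v, ∑ e : Fin 2 × Bool, F v e (anc (an v)) = 1 - 1 / s
  B : Finset V
  B_card : (B.card : ℝ) ≤ η * Fintype.card V
  g : V → M → ℝ
  g_lip : ∀ v, v ∉ B → ∀ p q, |g v p - g v q| ≤ (4 / s) * dist p q
  g_eq : ∀ v, v ∉ B → ∀ p ∈ S, g v p = ∑ e : Fin 2 × Bool, F v e p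

structure FreeLike {M : Type} [MetricSpace M] (o : M) (X : Type) [NormedAddCommGroup X]
    [NormedSpace ℝ X] where
  d : M → X
  lip : ∀ p q, ‖d p - d q‖ ≤ dist p q
  base : d o = 0
  dense : ∀ x : X, x ∈ closure (Submodule.span ℝ (Set.range d) : Set X)
  pair : ∀ (h : M → ℝ) (K : ℝ), 0 ≤ K → (∀ p q, |h p - h q| ≤ K * dist p q) →
    ∃ φ : X →L[ℝ] ℝ, ‖φ‖ ≤ K ∧ ∀ p, φ (d p) = h p - h o

end Vale.Agent.P090
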