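import Mathlib
import Vale.Agent.P090.Words

namespace Vale.Agent.P090

open FreeGroup (mk of)

variable (α : Type) [DecidableEq α] [Finite α] (R : ℕ)

abbrev BallF : Type := {w : FreeGroup α // w.norm ≤ R}

instance : Finite (BallF α R) := (finite_norm_le R).to_subtype

abbrev Quo : Type := Equiv.Perm (BallF α R)

variable {α}

open Classical in
noncomputable def genPerm (a : α) : Quo α R :=
  haveI : Finite (BallF α R) := (finite_norm_le R).to_subtype
  Equiv.extendSubtype (p := fun w : BallF α R => (of a * w.1).norm ≤ R)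
    (q := fun w : BallF α R => ((of a)⁻¹ * w.1).norm ≤ R)
    { toFun := fun w => ⟨⟨of a * w.1.1, w.2⟩, by
        rw [inv_mul_cancel_left]; exact w.1.2⟩
      invFun := fun w => ⟨⟨(of a)⁻¹ * w.1.1, w.2⟩, by
        rw [mul_inv_cancel_left]; exact w.1.2⟩
      left_inv := fun w => by simp
      right_inv := fun w => by simp }

lemma genPerm_apply (a : α) (w : BallF α R) (h : (of a * w.1).norm ≤ R) :
    (genPerm R a w).1 = of a * w.1 := by
  haveI : Finite (BallF α R) := (finite_norm_le R).to_subtype
  unfold genPerm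
  erw [Equiv.extendSubtype_apply_of_mem _ w h]
  rfl

variable (α) in
noncomputable def quo : FreeGroup α →* Quo α R := FreeGroup.lift (genPerm R)

variable (α) in
def baseF : BallF α R := ⟨1, by simp⟩

lemma quo_mk_apply (L : List (α × Bool)) (hL : L.length ≤ R) :
    (quo α R (mk L) (baseF α R)).1 = mk L := by
  induction L with
  | nil => 
    have : (mk [] : FreeGroup α) = 1 := rfl
    rw [this, map_one]
    rfl
  | cons a L ih =>
    have hL' : L.length ≤ R := by simp only [List.length_cons] at hL; omega
    have h1 : (mk (a :: L) : FreeGroup α) = mk [a] * mk L := by rw [FreeGroup.mul_mk]; rfl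
    set v : BallF α R := quo α R (mk L) (baseF α R) with hv
    have hv1 : v.1 = mk L := ih hL'
    have h2 : quo α R (mk (a :: L)) (baseF α R) = quo α R (mk [a]) v := by
      rw [h1, map_mul, Equiv.Perm.mul_apply]
    rw [h2]
    rcases a with ⟨i, b⟩
    cases b
    · have h5 : (mk [(i, false)] : FreeGroup α) = (of i)⁻¹ := by
        rw [of, letter_inv]; rfl
      have h3 : quo α R (mk [(i, false)]) = (genPerm R i)⁻¹ := by
        rw [h5, map_inv, quo, FreeGroup.lift_apply_of]
      have h4 : of i * (mk ((i, false) :: L)) = (mk L : FreeGroup α) := by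
        rw [h1, h5, mul_inv_cancel_left]
      have h6 : (genPerm R i)⁻¹ v = ⟨mk ((i, false) :: L), FreeGroup.norm_mk_le.trans hL⟩ := by
        rw [Equiv.Perm.inv_eq_iff_eq]
        apply Subtype.ext
        rw [genPerm_apply R i _ (by rw [h4]; exact FreeGroup.norm_mk_le.trans hL')]
        rw [hv1, h4]
      rw [h3, h6]
    · have h3 : quo α R (mk [(i, true)]) = genPerm R i := by
        have : (mk [(i, true)] : FreeGroup α) = of i := rfl
        rw [this, quo, FreeGroup.lift_apply_of]
      have h4 : of i * v.1 = mk ((i, true) :: L) := by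
        rw [hv1, h1]; rfl
      rw [h3, genPerm_apply R i _ (by rw [h4]; exact FreeGroup.norm_mk_le.trans hL), h4]

lemma quo_inj (w : FreeGroup α) (hw : w.norm ≤ R) (h : quo α R w = 1) : w = 1 := by
  have h1 := quo_mk_apply R w.toWord hw
  rw [FreeGroup.mk_toWord, h] at h1
  exact h1.symm

lemma quo_inj_on {n : ℕ} (hn : 2 * n ≤ R) (w w' : FreeGroup α) (hw : w.norm ≤ n)
    (hw' : w'.norm ≤ n) (h : quo α R w = quo α R w') : w = w' := by
  have h1 : quo α R (w⁻¹ * w') = 1 := by
    rw [map_mul, map_inv, h, inv_mul_cancel]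
  have h2 : (w⁻¹ * w').norm ≤ R := by
    refine (FreeGroup.norm_mul_le _ _).trans ?_
    rw [FreeGroup.norm_inv_eq]
    omega
  have h3 := quo_inj R _ h2 h1
  exact (inv_mul_eq_one.1 h3)

end Vale.Agent.P090
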