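import Mathlib
import Vale.Agent.P090.BadW
import Vale.Agent.P090.Quo

namespace Vale.Agent.P090

open FreeGroup (mk of IsReduced)

def BX (n : ℕ) : Type := Fin 2 × Quo (Fin 2) n → Fin 8

instance (n : ℕ) : Finite (BX n) := inferInstanceAs (Finite (Fin 2 × Quo (Fin 2) n → Fin 8))

noncomputable instance (n : ℕ) : Fintype (BX n) := Fintype.ofFinite _

instance (n : ℕ) : Nonempty (BX n) := ⟨fun _ => 0⟩

noncomputable instance (n : ℕ) : MulAction GG (BX n) where
  smul γ x := fun p => x (p.1, p.2 * quo (Fin 2) n γ)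
  one_smul x := by
    funext p
    change x (p.1, p.2 * quo (Fin 2) n 1) = x p
    rw [map_one, mul_one]
  mul_smul g h x := by
    funext p
    change x (p.1, p.2 * quo (Fin 2) n (g * h)) = x (p.1, p.2 * quo (Fin 2) n g * quo (Fin 2) n h)
    rw [map_mul, mul_assoc]

lemma BX_smul_apply {n : ℕ} (γ : GG) (x : BX n) (p : Fin 2 × Quo (Fin 2) n) :
    (γ • x) p = x (p.1, p.2 * quo (Fin 2) n γ) := rfl

def bcol (n : ℕ) : Fin 2 → BX n → Fin 8 := fun i x => x (i, 1)

lemma bcol_smul {n : ℕ} (i : Fin 2) (γ : GG) (x : BX n) :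
    bcol n i (γ • x) = x (i, quo (Fin 2) n γ) := by
  unfold bcol
  rw [BX_smul_apply, one_mul]

def posG : List (Fin 2 × Bool) → List (Fin 2 × GG)
  | [] => []
  | a :: L => (a.1, if a.2 = true then mk L else mk (a :: L)) :: posG L

lemma length_posG (L : List (Fin 2 × Bool)) : (posG L).length = L.length := by
  induction L with
  | nil => rfl
  | cons a L ih => rw [posG, List.length_cons, List.length_cons, ih]

lemma colors_eq (n : ℕ) (L : List (Fin 2 × Bool)) (x : BX n) :
    (colorWord (bcol n) L x).map (fun a => a.1.2) =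
      (posG L).map (fun p => x (p.1, quo (Fin 2) n p.2)) := by
  induction L with
  | nil => rfl
  | cons a L ih =>
    rw [colorWord, posG, List.map_cons, List.map_cons, ih]
    congr 1
    unfold cl
    simp only
    split_ifs with h
    · rw [bcol_smul]
    · rw [smul_smul, ← mk_cons, bcol_smul]

lemma posG_aux (L : List (Fin 2 × Bool)) (hL : IsReduced L) :
    ∀ p ∈ posG L, p.2.norm ≤ L.length ∧
      (p.2.norm = L.length → ∃ L', L = (p.1, false) :: L') := by
  induction L with
  | nil => intro p hp; simp [posG] at hp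
  | cons a L ih =>
    have hL' : IsReduced L := List.IsChain.tail hL
    intro p hp
    rw [posG, List.mem_cons] at hp
    rcases hp with rfl | hp
    · rcases a with ⟨i, b⟩
      cases b
      · simp only [Bool.false_eq_true, if_false]
        rw [norm_mk_of_isReduced hL]
        exact ⟨le_rfl, fun _ => ⟨L, rfl⟩⟩
      · simp only [if_true]
        rw [norm_mk_of_isReduced hL', List.length_cons]
        exact ⟨by omega, fun h => by omega⟩
    · have h1 := (ih hL' p hp).1
      rw [List.length_cons]
      exact ⟨by omega, fun h => by omega⟩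

lemma nodup_posG (L : List (Fin 2 × Bool)) (hL : IsReduced L) : (posG L).Nodup := by
  induction L with
  | nil => exact List.nodup_nil
  | cons a L ih =>
    have hL' : IsReduced L := List.IsChain.tail hL
    rw [posG, List.nodup_cons]
    refine ⟨fun hmem => ?_, ih hL'⟩
    have h1 := posG_aux L hL' _ hmem
    rcases a with ⟨i, b⟩
    cases b
    · simp only [Bool.false_eq_true, if_false] at h1
      rw [norm_mk_of_isReduced hL, List.length_cons] at h1
      have := h1.1
      omega
    · simp only [if_true] at h1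
      rw [norm_mk_of_isReduced hL'] at h1
      obtain ⟨L', hL''⟩ := h1.2 rfl
      rw [hL'', FreeGroup.isReduced_cons_cons] at hL
      exact absurd (hL.1 rfl) (by simp)

lemma card_map_eq {P : Type} [Fintype P] [DecidableEq P] (l : List P) (hl : l.Nodup) (c : List (Fin 8)) :
    (Finset.univ.filter (fun x : P → Fin 8 => l.map x = c)).card * 8 ^ l.length ≤
      Nat.card (P → Fin 8) := by
  rcases (Finset.univ.filter (fun x : P → Fin 8 => l.map x = c)).eq_empty_or_nonempty with h | h
  · rw [h, Finset.card_empty, zero_mul]; exact Nat.zero_le _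
  · obtain ⟨f, hf⟩ := h
    rw [Finset.mem_filter] at hf
    have hsub : Finset.univ.filter (fun x : P → Fin 8 => l.map x = c) ⊆
        Fintype.piFinset (fun p => if p ∈ l then ({f p} : Finset (Fin 8)) else Finset.univ) := by
      intro x hx
      rw [Finset.mem_filter] at hx
      rw [Fintype.mem_piFinset]
      intro p
      split_ifs with hp
      · have h1 : l.map x = l.map f := hx.2.trans hf.2.symm
        rw [Finset.mem_singleton]
        exact (List.map_inj_left.1 h1) p hp
      · exact Finset.mem_univ _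
    have hcard : (Fintype.piFinset (fun p => if p ∈ l then ({f p} : Finset (Fin 8))
        else Finset.univ)).card = 8 ^ (Fintype.card P - l.length) := by
      rw [Fintype.card_piFinset]
      have h2 : ∀ p : P, (if p ∈ l then ({f p} : Finset (Fin 8)) else Finset.univ).card =
          if p ∈ l then 1 else 8 := by
        intro p
        split_ifs
        · exact Finset.card_singleton _
        · simp
      simp only [h2]
      rw [Finset.prod_ite, Finset.prod_const_one, one_mul, Finset.prod_const]
      congr 1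
      have h3 : (Finset.univ.filter (fun p => ¬ p ∈ l)) = (l.toFinset)ᶜ := by
        ext p; simp
      rw [h3, Finset.card_compl, List.toFinset_card_of_nodup hl]
    have hlen : l.length ≤ Fintype.card P := by
      rw [← List.toFinset_card_of_nodup hl]
      exact Finset.card_le_univ _
    calc _ ≤ 8 ^ (Fintype.card P - l.length) * 8 ^ l.length := by
          apply Nat.mul_le_mul_right
          rw [← hcard]
          exact Finset.card_le_card hsub
      _ = 8 ^ Fintype.card P := by
          rw [← pow_add]
          congr 1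
          omega
      _ = Nat.card (P → Fin 8) := by simp

lemma card_match (n R : ℕ) (hR : 2 * R ≤ n) (L : List (Fin 2 × Bool)) (hL : IsReduced L)
    (hLR : L.length = R) (κ : GG) (c : List ((Fin 2 × Fin 8) × Bool)) [DecidablePred
      (fun x : BX n => colorWord (bcol n) L (κ • x) = c)] :
    (Finset.univ.filter (fun x : BX n => colorWord (bcol n) L (κ • x) = c)).card * 8 ^ R ≤
      Fintype.card (BX n) := by
  classical
  letI : Fintype (Fin 2 × Quo (Fin 2) n) := Fintype.ofFinite _
  set l : List (Fin 2 × Quo (Fin 2) n) := (posG L).map (fun p => (p.1, quo (Fin 2) n p.2)) with hl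
  have hnd : l.Nodup := by
    rw [hl]
    refine List.Nodup.map_on ?_ (nodup_posG L hL)
    rintro ⟨i, γ⟩ hp ⟨j, γ'⟩ hp' heq
    rw [Prod.mk.injEq] at heq
    have h1 := (posG_aux L hL _ hp).1
    have h2 := (posG_aux L hL _ hp').1
    simp only at h1 h2 heq
    rw [heq.1, quo_inj_on n hR γ γ' (by omega) (by omega) heq.2]
  have hlen : l.length = R := by rw [hl, List.length_map, length_posG, hLR]
  have h1 := card_map_eq l hnd (c.map (fun a => a.1.2))
  rw [hlen] at h1
  have h2 := h1.trans (le_of_eq (Nat.card_eq_fintype_card (α := BX n)))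
  refine le_trans (Nat.mul_le_mul_right _ ?_) h2
  let f : BX n → (Fin 2 × Quo (Fin 2) n → Fin 8) := fun x => (κ • x : BX n)
  refine Finset.card_le_card_of_injOn f ?_ ?_
  · intro x hx
    rw [Finset.mem_coe, Finset.mem_filter] at hx
    have h3 : l.map (f x) = c.map (fun a => a.1.2) := by
      rw [← hx.2, colors_eq, hl, List.map_map]
      rfl
    exact Finset.mem_coe.2 (Finset.mem_filter.2 ⟨Finset.mem_univ _, h3⟩)
  · intro x _ y _ hxy
    exact MulAction.injective κ hxy

def BadX (n m s : ℕ) (x : BX n) : Prop :=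
  ∃ (y : BX m) (w : FF), w.norm ≤ s ∧ Bad (colCoc (bcol n)) (colCoc (bcol m)) x y w

open Classical in
lemma card_badX (n m s R : ℕ) (hR : 2 * R ≤ n) :
    (Finset.univ.filter (fun x : BX n => BadX n m s x)).card * 2 ^ R ≤
      (Nat.card (BallF (Fin 2) s) * Nat.card (BX m)) * Fintype.card (BX n) := by
  letI : Fintype (BallF (Fin 2) s) := Fintype.ofFinite _
  set I := BallF (Fin 2) s × BX m × {v : Fin R → Fin 2 × Bool // IsReduced (List.ofFn v)} with hI
  set S : I → Finset (BX n) := fun i => Finset.univ.filter (fun x : BX n =>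
    colorWord (bcol n) (List.ofFn i.2.2.1) (i.1.1 • x) =
      colorWord (bcol m) (List.ofFn i.2.2.1) i.2.1) with hS
  have hsub : Finset.univ.filter (fun x : BX n => BadX n m s x) ⊆ Finset.univ.biUnion S := by
    intro x hx
    rw [Finset.mem_filter] at hx
    obtain ⟨-, y, w, hw, hb⟩ := hx
    obtain ⟨κ, y₁, hκ, hb1⟩ := bad_peel (bcol n) (bcol m) s x y w hw hb
    obtain ⟨L, hLR, hLr, hLc⟩ := bad_one_long (bcol n) (bcol m) _ _ hb1 R
    subst hLR
    rw [Finset.mem_biUnion]
    refine ⟨⟨⟨κ, hκ⟩, y₁, ⟨fun i => L.get i, ?_⟩⟩, Finset.mem_univ _, ?_⟩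
    · rw [List.ofFn_get]; exact hLr
    · rw [hS]
      simp only [Finset.mem_filter, Finset.mem_univ, true_and]
      rw [List.ofFn_get]
      exact hLc
  have h1 : (Finset.univ.filter (fun x : BX n => BadX n m s x)).card * 8 ^ R ≤
      Fintype.card I * Fintype.card (BX n) := by
    calc _ ≤ (∑ i : I, (S i).card) * 8 ^ R :=
          Nat.mul_le_mul_right _ ((Finset.card_le_card hsub).trans Finset.card_biUnion_le)
      _ = ∑ i : I, (S i).card * 8 ^ R := by rw [Finset.sum_mul]
      _ ≤ ∑ i : I, Fintype.card (BX n) := by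
          refine Finset.sum_le_sum fun i _ => ?_
          exact card_match n R hR _ i.2.2.2 (List.length_ofFn) _ _
      _ = _ := by rw [Finset.sum_const, Finset.card_univ, smul_eq_mul]
  have h2 : Fintype.card I ≤ (Nat.card (BallF (Fin 2) s) * Nat.card (BX m)) * 4 ^ R := by
    have h0 : Fintype.card I = Fintype.card (BallF (Fin 2) s) * (Fintype.card (BX m) *
        Fintype.card {v : Fin R → Fin 2 × Bool // IsReduced (List.ofFn v)}) := by
      rw [← Fintype.card_prod, ← Fintype.card_prod]
    rw [h0, Nat.card_eq_fintype_card, Nat.card_eq_fintype_card, mul_assoc]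
    refine Nat.mul_le_mul_left _ (Nat.mul_le_mul_left _ ?_)
    refine (Fintype.card_subtype_le _).trans ?_
    simp
  have h3 : (8 : ℕ) ^ R = 2 ^ R * 4 ^ R := by rw [← mul_pow]; norm_num
  have h4 := h1.trans (Nat.mul_le_mul_right _ h2)
  rw [h3, ← mul_assoc] at h4
  have h5 : 0 < 4 ^ R := by positivity
  apply Nat.le_of_mul_le_mul_right _ h5
  calc _ ≤ _ := h4
    _ = _ := by ring

open Classical in
lemma exists_few_bad (N s : ℕ) (η : ℝ) (hη : 0 < η) :
    ∃ n, N < n ∧ ((Finset.univ.filter (fun x : BX n => ∃ m ≤ N, BadX n m s x)).card : ℝ) ≤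
      η * Fintype.card (BX n) := by
  set C : ℕ := ∑ m ∈ Finset.range (N + 1), (Nat.card (BallF (Fin 2) s) * Nat.card (BX m)) with hC
  obtain ⟨R, hR⟩ : ∃ R : ℕ, (C : ℝ) / η < 2 ^ R := pow_unbounded_of_one_lt _ (by norm_num)
  refine ⟨2 * R + N + 1, by omega, ?_⟩
  set n := 2 * R + N + 1 with hn
  have hsub : Finset.univ.filter (fun x : BX n => ∃ m ≤ N, BadX n m s x) ⊆
      (Finset.range (N + 1)).biUnion (fun m => Finset.univ.filter (fun x : BX n => BadX n m s x)) := by
    intro x hx
    rw [Finset.mem_filter] at hx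
    obtain ⟨-, m, hm, hb⟩ := hx
    rw [Finset.mem_biUnion]
    exact ⟨m, Finset.mem_range.2 (by omega), Finset.mem_filter.2 ⟨Finset.mem_univ _, hb⟩⟩
  have h1 : (Finset.univ.filter (fun x : BX n => ∃ m ≤ N, BadX n m s x)).card * 2 ^ R ≤
      C * Fintype.card (BX n) := by
    calc _ ≤ (∑ m ∈ Finset.range (N + 1),
            (Finset.univ.filter (fun x : BX n => BadX n m s x)).card) * 2 ^ R :=
          Nat.mul_le_mul_right _ ((Finset.card_le_card hsub).trans Finset.card_biUnion_le)
      _ = ∑ m ∈ Finset.range (N + 1),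
            (Finset.univ.filter (fun x : BX n => BadX n m s x)).card * 2 ^ R := by
          rw [Finset.sum_mul]
      _ ≤ ∑ m ∈ Finset.range (N + 1),
            (Nat.card (BallF (Fin 2) s) * Nat.card (BX m)) * Fintype.card (BX n) :=
          Finset.sum_le_sum fun m _ => card_badX n m s R (by omega)
      _ = _ := by rw [hC, Finset.sum_mul]
  have h2 : ((Finset.univ.filter (fun x : BX n => ∃ m ≤ N, BadX n m s x)).card : ℝ) * 2 ^ R ≤
      C * Fintype.card (BX n) := by exact_mod_cast h1
  have h3 : (0 : ℝ) < 2 ^ R := by positivity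
  rw [← le_div_iff₀ h3] at h2
  refine h2.trans ?_
  rw [div_le_iff₀ h3]
  rw [div_lt_iff₀ hη] at hR
  have h4 : (0 : ℝ) ≤ Fintype.card (BX n) := by positivity
  nlinarith [mul_le_mul_of_nonneg_right hR.le h4]

end Vale.Agent.P090
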