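import Mathlib
import Vale.Agent.P090.Count

namespace Vale.Agent.P090

open FreeGroup (mk of IsReduced)

abbrev AA (s : ℕ) : Type := Quo (Fin 2 × Fin 8) (2 * (s + 1))

noncomputable def ev (s : ℕ) : FF →* AA s := quo (Fin 2 × Fin 8) (2 * (s + 1))

lemma ev_inj (s : ℕ) (w w' : FF) (hw : w.norm ≤ s + 1) (hw' : w'.norm ≤ s + 1)
    (h : ev s w = ev s w') : w = w' :=
  quo_inj_on _ le_rfl w w' hw hw' h

open Classical in
noncomputable def push (s : ℕ) (Ψ : FF → ℝ) (z : AA s) : ℝ :=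
  if h : ∃ w : FF, w.norm ≤ s + 1 ∧ ev s w = z then Ψ (Classical.choose h) else 0

lemma push_ev (s : ℕ) (Ψ : FF → ℝ) (w : FF) (hw : w.norm ≤ s + 1) :
    push s Ψ (ev s w) = Ψ w := by
  have h : ∃ w' : FF, w'.norm ≤ s + 1 ∧ ev s w' = ev s w := ⟨w, hw, rfl⟩
  unfold push
  rw [dif_pos h]
  have h1 := Classical.choose_spec h
  rw [ev_inj s _ _ h1.1 hw h1.2]

lemma push_eq_zero (s : ℕ) (Ψ : FF → ℝ) (hΨ : ∀ w : FF, s ≤ w.norm → Ψ w = 0) (z : AA s)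
    (hz : ∀ w : FF, w.norm < s → ev s w ≠ z) : push s Ψ z = 0 := by
  unfold push
  split_ifs with h
  · have h1 := Classical.choose_spec h
    apply hΨ
    by_contra hlt
    exact hz _ (by omega) h1.2
  · rfl

lemma push_left (s : ℕ) (Ψ Ψ' : FF → ℝ) (hΨ : ∀ w : FF, s ≤ w.norm → Ψ w = 0)
    (hΨ' : ∀ w : FF, s ≤ w.norm → Ψ' w = 0) (l : FF) (hl : l.norm ≤ 1) (c ε : ℝ) (hε : 0 ≤ ε)
    (h : ∀ w : FF, |Ψ' (l * w) - c * Ψ w| ≤ ε) (z : AA s) :
    |push s Ψ' (ev s l * z) - c * push s Ψ z| ≤ ε := by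
  by_cases hz : ∃ w : FF, w.norm ≤ s ∧ ev s w = z
  · obtain ⟨w, hw, rfl⟩ := hz
    rw [← map_mul, push_ev s Ψ w (by omega), push_ev s Ψ' (l * w)
      ((FreeGroup.norm_mul_le _ _).trans (by omega))]
    exact h w
  · push Not at hz
    rw [push_eq_zero s Ψ hΨ z (fun w hw => hz w hw.le), push_eq_zero s Ψ' hΨ' _ ?_]
    · simpa using hε
    · intro w hw hcon
      apply hz (l⁻¹ * w)
      · refine (FreeGroup.norm_mul_le _ _).trans ?_
        rw [FreeGroup.norm_inv_eq]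
        omega
      · rw [map_mul, map_inv, hcon, inv_mul_cancel_left]

lemma push_right (s : ℕ) (Ψ Ψ' : FF → ℝ) (hΨ : ∀ w : FF, s ≤ w.norm → Ψ w = 0)
    (hΨ' : ∀ w : FF, s ≤ w.norm → Ψ' w = 0) (l : FF) (hl : l.norm ≤ 1) (c ε : ℝ) (hε : 0 ≤ ε)
    (h : ∀ w : FF, |Ψ' (w * l) - c * Ψ w| ≤ ε) (z : AA s) :
    |push s Ψ' (z * ev s l) - c * push s Ψ z| ≤ ε := by
  by_cases hz : ∃ w : FF, w.norm ≤ s ∧ ev s w = z
  · obtain ⟨w, hw, rfl⟩ := hz
    rw [← map_mul, push_ev s Ψ w (by omega), push_ev s Ψ' (w * l)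
      ((FreeGroup.norm_mul_le _ _).trans (by omega))]
    exact h w
  · push Not at hz
    rw [push_eq_zero s Ψ hΨ z (fun w hw => hz w hw.le), push_eq_zero s Ψ' hΨ' _ ?_]
    · simpa using hε
    · intro w hw hcon
      apply hz (w * l⁻¹)
      · refine (FreeGroup.norm_mul_le _ _).trans ?_
        rw [FreeGroup.norm_inv_eq]
        omega
      · rw [map_mul, map_inv, hcon, mul_inv_cancel_right]

lemma push_bound (s : ℕ) (Ψ : FF → ℝ) (C : ℝ) (hC : 0 ≤ C)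
    (h : ∀ w : FF, |Ψ w| ≤ C) (z : AA s) : |push s Ψ z| ≤ C := by
  unfold push
  split_ifs
  · exact h _
  · simpa using hC

lemma push_sub_bound (s : ℕ) (Ψ Ψ' : FF → ℝ) (C : ℝ) (hC : 0 ≤ C)
    (hΨ : ∀ w : FF, s ≤ w.norm → Ψ w = 0) (hΨ' : ∀ w : FF, s ≤ w.norm → Ψ' w = 0)
    (h : ∀ w : FF, w.norm ≤ s → |Ψ w - Ψ' w| ≤ C) (z : AA s) :
    |push s Ψ z - push s Ψ' z| ≤ C := by
  by_cases hz : ∃ w : FF, w.norm ≤ s ∧ ev s w = z
  · obtain ⟨w, hw, rfl⟩ := hz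
    rw [push_ev s Ψ w (by omega), push_ev s Ψ' w (by omega)]
    exact h w hw
  · push Not at hz
    rw [push_eq_zero s Ψ hΨ z (fun w hw => hz w hw.le),
      push_eq_zero s Ψ' hΨ' z (fun w hw => hz w hw.le)]
    simpa using hC

lemma push_sum (s : ℕ) {ι : Type} (t : Finset ι) (Ψ : ι → FF → ℝ) (z : AA s) :
    push s (fun w => ∑ i ∈ t, Ψ i w) z = ∑ i ∈ t, push s (Ψ i) z := by
  unfold push
  split_ifs
  · rfl
  · simp

noncomputable def phi (s : ℕ) (w : FF) : ℝ := max 0 (1 - (w.norm : ℝ) / s)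

lemma phi_nonneg (s : ℕ) (w : FF) : 0 ≤ phi s w := le_max_left _ _

lemma phi_le_one (s : ℕ) (w : FF) : phi s w ≤ 1 := by
  unfold phi
  refine max_le (by norm_num) ?_
  have : (0 : ℝ) ≤ (w.norm : ℝ) / s := by positivity
  linarith

lemma phi_supp (s : ℕ) (hs : 0 < s) (w : FF) (hw : s ≤ w.norm) : phi s w = 0 := by
  unfold phi
  apply max_eq_left
  have h1 : (0 : ℝ) < s := by exact_mod_cast hs
  have h2 : (s : ℝ) ≤ w.norm := by exact_mod_cast hw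
  have : 1 ≤ (w.norm : ℝ) / s := by rwa [one_le_div h1]
  linarith

lemma phi_lip (s : ℕ) (hs : 0 < s) (w w' : FF) (h1 : w.norm ≤ w'.norm + 1)
    (h2 : w'.norm ≤ w.norm + 1) : |phi s w - phi s w'| ≤ 1 / s := by
  have h0 : (0 : ℝ) < s := by exact_mod_cast hs
  unfold phi
  refine (abs_max_sub_max_le_max _ _ _ _).trans ?_
  rw [sub_self, abs_zero]
  apply max_le (by positivity)
  have h3 : (1 - (w.norm : ℝ) / s) - (1 - (w'.norm : ℝ) / s) = ((w'.norm : ℝ) - w.norm) / s := by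
    ring
  rw [h3, abs_div, abs_of_pos h0]
  apply div_le_div_of_nonneg_right _ h0.le
  rw [abs_le]
  have h1' : (w.norm : ℝ) ≤ w'.norm + 1 := by exact_mod_cast h1
  have h2' : (w'.norm : ℝ) ≤ w.norm + 1 := by exact_mod_cast h2
  constructor <;> linarith

lemma phi_one (s : ℕ) : phi s 1 = 1 := by
  unfold phi
  rw [FreeGroup.norm_one]
  simp

lemma phi_of_norm_one (s : ℕ) (hs : 0 < s) (w : FF) (hw : w.norm = 1) :
    phi s w = 1 - 1 / s := by
  unfold phi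
  rw [hw]
  have h0 : (1 : ℝ) ≤ s := by exact_mod_cast hs
  rw [max_eq_right]
  · simp
  · have : (1 : ℝ) / s ≤ 1 := by
      rw [div_le_one (by linarith)]
      exact h0
    simp at this ⊢
    exact this

end Vale.Agent.P090
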