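import Mathlib
import Vale.Agent.P090.Push

namespace Vale.Agent.P090

open FreeGroup (mk of IsReduced)

section

variable {X Y : Type} [MulAction GG X] [MulAction GG Y]
variable (cX : Coc X) (cY : Coc Y)

noncomputable def Phi (s : ℕ) (e : Fin 2 × Bool) (x : X) (w : FF) : ℝ :=
  min (phi s w) (phi s (cX.lam (mk [e]) x * w))

noncomputable def Psi (s : ℕ) (e : Fin 2 × Bool) (x : X) (y : Y) (w : FF) : ℝ :=
  KK cX cY e x y w * Phi cX s e x w

lemma Phi_nonneg (s : ℕ) (e : Fin 2 × Bool) (x : X) (w : FF) : 0 ≤ Phi cX s e x w :=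
  le_min (phi_nonneg _ _) (phi_nonneg _ _)

lemma Phi_le_one (s : ℕ) (e : Fin 2 × Bool) (x : X) (w : FF) : Phi cX s e x w ≤ 1 :=
  (min_le_left _ _).trans (phi_le_one _ _)

lemma Phi_supp (s : ℕ) (hs : 0 < s) (e : Fin 2 × Bool) (x : X) (w : FF) (hw : s ≤ w.norm) :
    Phi cX s e x w = 0 := by
  apply le_antisymm _ (Phi_nonneg _ _ _ _ _)
  rw [← phi_supp s hs w hw]
  exact min_le_left _ _

lemma lam_back (e : Fin 2 × Bool) (x : X) :
    cX.lam (mk [(e.1, !e.2)]) ((mk [e] : GG) • x) * cX.lam (mk [e]) x = 1 := by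
  have h : (mk [(e.1, !e.2)] : GG) = (mk [e])⁻¹ := (letter_inv e).symm
  rw [h, cX.lam_inv, inv_mul_cancel]

lemma act_back (e : Fin 2 × Bool) (x : X) :
    (mk [(e.1, !e.2)] : GG) • (mk [e] : GG) • x = x := by
  have h : (mk [(e.1, !e.2)] : GG) = (mk [e])⁻¹ := (letter_inv e).symm
  rw [h, inv_smul_smul]

lemma Phi_left (s : ℕ) (e : Fin 2 × Bool) (x : X) (w : FF) :
    Phi cX s (e.1, !e.2) ((mk [e] : GG) • x) (cX.lam (mk [e]) x * w) = Phi cX s e x w := by
  unfold Phi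
  rw [← mul_assoc, lam_back, one_mul, min_comm]

lemma norm_near_mul_right {α : Type*} [DecidableEq α] (w l : FreeGroup α) (hl : l.norm ≤ 1) :
    (w * l).norm ≤ w.norm + 1 ∧ w.norm ≤ (w * l).norm + 1 := by
  constructor
  · exact (FreeGroup.norm_mul_le _ _).trans (by omega)
  · have h1 : w = (w * l) * l⁻¹ := by group
    calc w.norm = ((w * l) * l⁻¹).norm := by rw [← h1]
      _ ≤ (w * l).norm + (l⁻¹).norm := FreeGroup.norm_mul_le _ _
      _ ≤ _ := by rw [FreeGroup.norm_inv_eq]; omega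

lemma norm_near_mul_left {α : Type*} [DecidableEq α] (w l : FreeGroup α) (hl : l.norm ≤ 1) :
    (l * w).norm ≤ w.norm + 1 ∧ w.norm ≤ (l * w).norm + 1 := by
  constructor
  · exact (FreeGroup.norm_mul_le _ _).trans (by omega)
  · have h1 : w = l⁻¹ * (l * w) := by group
    calc w.norm = (l⁻¹ * (l * w)).norm := by rw [← h1]
      _ ≤ (l⁻¹).norm + (l * w).norm := FreeGroup.norm_mul_le _ _
      _ ≤ _ := by rw [FreeGroup.norm_inv_eq]; omega

lemma phi_right_lip (s : ℕ) (hs : 0 < s) (w l : FF) (hl : l.norm ≤ 1) :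
    |phi s (w * l) - phi s w| ≤ 1 / s :=
  phi_lip s hs _ _ (norm_near_mul_right w l hl).1 (norm_near_mul_right w l hl).2

lemma Phi_right_lip (s : ℕ) (hs : 0 < s) (e : Fin 2 × Bool) (x : X) (w l : FF)
    (hl : l.norm ≤ 1) : |Phi cX s e x (w * l) - Phi cX s e x w| ≤ 1 / s := by
  unfold Phi
  refine (abs_min_sub_min_le_max _ _ _ _).trans ?_
  apply max_le
  · exact phi_right_lip s hs w l hl
  · rw [← mul_assoc]
    exact phi_right_lip s hs _ l hl

lemma Phi_sub (s : ℕ) (hs : 0 < s) (e : Fin 2 × Bool) (x : X) (w : FF)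
    (hl : (cX.lam (mk [e]) x).norm ≤ 1) : |Phi cX s e x w - phi s w| ≤ 1 / s := by
  unfold Phi
  have h := norm_near_mul_left w _ hl
  have h1 := phi_lip s hs _ _ h.1 h.2
  have h2 : |min (phi s w) (phi s (cX.lam (mk [e]) x * w)) - min (phi s w) (phi s w)| ≤ 1 / s := by
    refine (abs_min_sub_min_le_max _ _ _ _).trans ?_
    rw [sub_self, abs_zero]
    exact max_le (by positivity) h1
  rwa [min_self] at h2

lemma Psi_supp (s : ℕ) (hs : 0 < s) (e : Fin 2 × Bool) (x : X) (y : Y) (w : FF)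
    (hw : s ≤ w.norm) : Psi cX cY s e x y w = 0 := by
  unfold Psi
  rw [Phi_supp cX s hs e x w hw, mul_zero]

lemma Psi_left (s : ℕ) (e : Fin 2 × Bool) (x : X) (y : Y) (w : FF) :
    Psi cX cY s (e.1, !e.2) ((mk [e] : GG) • x) y (cX.lam (mk [e]) x * w) =
      - Psi cX cY s e x y w := by
  unfold Psi
  rw [KK_left, Phi_left, neg_mul]

lemma Psi_right (s : ℕ) (hs : 0 < s) (e e' : Fin 2 × Bool) (x : X) (y : Y) (w : FF)
    (hl : (cY.lam (mk [e']) y).norm ≤ 1) :
    |Psi cX cY s e x ((mk [e'] : GG) • y) (w * (cY.lam (mk [e']) y)⁻¹) - Psi cX cY s e x y w|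
      ≤ 1 / (2 * s) := by
  unfold Psi
  rw [KK_right, ← mul_sub, abs_mul]
  have h1 := abs_KK_le cX cY e x y w
  have hl' : ((cY.lam (mk [e']) y)⁻¹).norm ≤ 1 := by
    rw [FreeGroup.norm_inv_eq]
    exact hl
  have h2 := Phi_right_lip cX s hs e x w _ hl'
  calc _ ≤ (1 / 2) * (1 / (s : ℝ)) :=
        mul_le_mul h1 h2 (abs_nonneg _) (by norm_num)
    _ = 1 / (2 * s) := by
      rw [div_mul_div_comm, one_mul]

lemma abs_Psi_le (s : ℕ) (e : Fin 2 × Bool) (x : X) (y : Y) (w : FF) :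
    |Psi cX cY s e x y w| ≤ 1 / 2 := by
  unfold Psi
  rw [abs_mul, abs_of_nonneg (Phi_nonneg cX s e x w)]
  have h1 := abs_KK_le cX cY e x y w
  have h2 := Phi_le_one cX s e x w
  calc _ ≤ (1 / 2) * (1 : ℝ) := mul_le_mul h1 h2 (Phi_nonneg _ _ _ _ _) (by norm_num)
    _ = 1 / 2 := by norm_num

lemma sum_Psi_sub (s : ℕ) (hs : 0 < s) (x : X) (y : Y) (w : FF)
    (hl : ∀ e, (cX.lam (mk [e]) x).norm ≤ 1) (hb : ¬ Bad cX cY x y w) :
    |∑ e : Fin 2 × Bool, Psi cX cY s e x y w - phi s w| ≤ 2 / s := by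
  have h1 : phi s w = ∑ e : Fin 2 × Bool, KK cX cY e x y w * phi s w := by
    rw [← Finset.sum_mul, sum_KK cX cY x y w hb, one_mul]
  nth_rewrite 1 [h1]
  rw [← Finset.sum_sub_distrib]
  refine (Finset.abs_sum_le_sum_abs _ _).trans ?_
  have h2 : ∀ e ∈ (Finset.univ : Finset (Fin 2 × Bool)),
      |Psi cX cY s e x y w - KK cX cY e x y w * phi s w| ≤ 1 / (2 * s) := by
    intro e _
    unfold Psi
    rw [← mul_sub, abs_mul]
    calc _ ≤ (1 / 2) * (1 / (s : ℝ)) :=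
          mul_le_mul (abs_KK_le cX cY e x y w) (Phi_sub cX s hs e x w (hl e)) (abs_nonneg _)
            (by norm_num)
      _ = 1 / (2 * s) := by
        rw [div_mul_div_comm, one_mul]
  refine (Finset.sum_le_sum h2).trans ?_
  rw [Finset.sum_const]
  have h3 : (Finset.univ : Finset (Fin 2 × Bool)).card = 4 := rfl
  rw [h3, nsmul_eq_mul]
  have h0 : (0 : ℝ) < s := by exact_mod_cast hs
  apply le_of_eq
  field_simp
  norm_num

lemma sum_Psi_one (s : ℕ) (hs : 0 < s) (x : X) (y : Y)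
    (hl : ∀ e, (cX.lam (mk [e]) x).norm = 1) (hb : ¬ Bad cX cY x y 1) :
    ∑ e : Fin 2 × Bool, Psi cX cY s e x y 1 = 1 - 1 / s := by
  have h1 : ∀ e, Phi cX s e x 1 = 1 - 1 / s := by
    intro e
    unfold Phi
    rw [mul_one, phi_one, phi_of_norm_one s hs _ (hl e), min_eq_right]
    have : (0 : ℝ) ≤ 1 / s := by positivity
    linarith
  unfold Psi
  simp only [h1]
  rw [← Finset.sum_mul, sum_KK cX cY x y 1 hb, one_mul]

noncomputable def Fp (s : ℕ) (e : Fin 2 × Bool) (x : X) (y : Y) (z : AA s) : ℝ :=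
  push s (Psi cX cY s e x y) z

lemma Fp_left (s : ℕ) (hs : 0 < s) (e : Fin 2 × Bool) (x : X) (y : Y) (z : AA s)
    (hl : (cX.lam (mk [e]) x).norm ≤ 1) :
    Fp cX cY s (e.1, !e.2) ((mk [e] : GG) • x) y (ev s (cX.lam (mk [e]) x) * z) =
      - Fp cX cY s e x y z := by
  have h := push_left s (Psi cX cY s e x y)
    (Psi cX cY s (e.1, !e.2) ((mk [e] : GG) • x) y)
    (fun w hw => Psi_supp cX cY s hs e x y w hw) (fun w hw => Psi_supp cX cY s hs _ _ y w hw)
    (cX.lam (mk [e]) x) hl (-1) 0 le_rfl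
    (fun w => by
      rw [Psi_left]
      simp) z
  unfold Fp
  have h2 := abs_nonpos_iff.1 h
  linarith

lemma Fp_right (s : ℕ) (hs : 0 < s) (e e' : Fin 2 × Bool) (x : X) (y : Y) (z : AA s)
    (hl : (cY.lam (mk [e']) y).norm ≤ 1) :
    |Fp cX cY s e x ((mk [e'] : GG) • y) (z * (ev s (cY.lam (mk [e']) y))⁻¹)
      - Fp cX cY s e x y z| ≤ 1 / (2 * s) := by
  have h := push_right s (Psi cX cY s e x y)
    (Psi cX cY s e x ((mk [e'] : GG) • y))
    (fun w hw => Psi_supp cX cY s hs e x y w hw) (fun w hw => Psi_supp cX cY s hs _ _ _ w hw)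
    (cY.lam (mk [e']) y)⁻¹ (by rw [FreeGroup.norm_inv_eq]; exact hl) 1 (1 / (2 * s))
    (by positivity)
    (fun w => by
      rw [one_mul]
      exact Psi_right cX cY s hs e e' x y w hl) z
  rw [map_inv, one_mul] at h
  exact h

lemma abs_Fp_le (s : ℕ) (e : Fin 2 × Bool) (x : X) (y : Y) (z : AA s) :
    |Fp cX cY s e x y z| ≤ 1 / 2 :=
  push_bound s _ _ (by norm_num) (fun w => abs_Psi_le cX cY s e x y w) z

lemma abs_sum_Fp_le (s : ℕ) (x : X) (y : Y) (z : AA s) :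
    |∑ e : Fin 2 × Bool, Fp cX cY s e x y z| ≤ 2 := by
  refine (Finset.abs_sum_le_sum_abs _ _).trans ?_
  refine (Finset.sum_le_sum (fun e _ => abs_Fp_le cX cY s e x y z)).trans ?_
  rw [Finset.sum_const]
  have h3 : (Finset.univ : Finset (Fin 2 × Bool)).card = 4 := rfl
  rw [h3, nsmul_eq_mul]
  norm_num

lemma sum_Fp_right (s : ℕ) (hs : 0 < s) (e' : Fin 2 × Bool) (x : X) (y : Y) (z : AA s)
    (hl : (cY.lam (mk [e']) y).norm ≤ 1) :
    |∑ e : Fin 2 × Bool, Fp cX cY s e x ((mk [e'] : GG) • y) (z * (ev s (cY.lam (mk [e']) y))⁻¹)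
      - ∑ e : Fin 2 × Bool, Fp cX cY s e x y z| ≤ 2 / s := by
  rw [← Finset.sum_sub_distrib]
  refine (Finset.abs_sum_le_sum_abs _ _).trans ?_
  refine (Finset.sum_le_sum (fun e _ => Fp_right cX cY s hs e e' x y z hl)).trans ?_
  rw [Finset.sum_const]
  have h3 : (Finset.univ : Finset (Fin 2 × Bool)).card = 4 := rfl
  rw [h3, nsmul_eq_mul]
  have h0 : (0 : ℝ) < s := by exact_mod_cast hs
  apply le_of_eq
  field_simp
  norm_num

lemma sum_Fp_sub (s : ℕ) (hs : 0 < s) (x : X) (y : Y) (z : AA s)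
    (hl : ∀ e, (cX.lam (mk [e]) x).norm ≤ 1)
    (hb : ∀ w : FF, w.norm ≤ s → ¬ Bad cX cY x y w) :
    |∑ e : Fin 2 × Bool, Fp cX cY s e x y z - push s (phi s) z| ≤ 2 / s := by
  unfold Fp
  rw [← push_sum s Finset.univ (fun e => Psi cX cY s e x y) z]
  apply push_sub_bound s _ _ _ (by positivity)
  · intro w hw
    apply Finset.sum_eq_zero
    intro e _
    exact Psi_supp cX cY s hs e x y w hw
  · intro w hw
    exact phi_supp s hs w hw
  · intro w hw
    exact sum_Psi_sub cX cY s hs x y w hl (hb w hw)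

lemma sum_Fp_one (s : ℕ) (hs : 0 < s) (x : X) (y : Y)
    (hl : ∀ e, (cX.lam (mk [e]) x).norm = 1) (hb : ¬ Bad cX cY x y 1) :
    ∑ e : Fin 2 × Bool, Fp cX cY s e x y 1 = 1 - 1 / s := by
  unfold Fp
  have h : (1 : AA s) = ev s 1 := (map_one _).symm
  rw [h]
  simp only [push_ev s _ 1 (by rw [FreeGroup.norm_one]; omega)]
  exact sum_Psi_one cX cY s hs x y hl hb

end

lemma push_phi_right (s : ℕ) (hs : 0 < s) (l : FF) (hl : l.norm ≤ 1) (z : AA s) :
    |push s (phi s) (z * ev s l) - push s (phi s) z| ≤ 1 / s := by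
  have h := push_right s (phi s) (phi s) (fun w hw => phi_supp s hs w hw)
    (fun w hw => phi_supp s hs w hw) l hl 1 (1 / s) (by positivity)
    (fun w => by rw [one_mul]; exact phi_right_lip s hs w l hl) z
  rwa [one_mul] at h

section

variable {X : Type} [MulAction GG X] (col : Fin 2 → X → Fin 8)

lemma norm_lam_letter (e : Fin 2 × Bool) (x : X) : ((colCoc col).lam (mk [e]) x).norm = 1 := by
  rw [norm_lam, FreeGroup.norm, FreeGroup.toWord_mk, FreeGroup.reduce_singleton]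
  rfl

lemma not_bad_unit (x : X) (y : Unit) (w : FF) : ¬ Bad (colCoc col) unitCoc x y w := by
  rintro ⟨γ, γ', h0, h1, h2, h3⟩
  apply h0
  have h4 : w * unitCoc.lam γ' y = w := mul_one w
  rw [h4] at h3
  have h5 : (colCoc col).lam γ x = 1 := mul_eq_right.1 h3
  have h6 := pr_lam col γ x
  rw [h5, map_one] at h6
  exact h6.symm

lemma norm_unit_lam (g : GG) (y : Unit) : ((unitCoc).lam g y : FF).norm ≤ 1 := by
  have : (unitCoc.lam g y : FF) = 1 := rfl
  rw [this, FreeGroup.norm_one]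
  exact Nat.zero_le 1

end

end Vale.Agent.P090
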