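import Mathlib
import Vale.Agent.P090.Psi
import Vale.Agent.P090.Defs

namespace Vale.Agent.P090

open FreeGroup (mk of IsReduced)

def sz (k : ℕ) : ℕ := (k + 1) ^ 2

lemma sz_pos (k : ℕ) : 0 < sz k := by unfold sz; positivity

lemma le_sz (k : ℕ) : k + 1 ≤ sz k := by
  unfold sz
  nlinarith

abbrev Part (s : ℕ) : Type := AA s ⊕ ((n : ℕ) × (BX n × AA s))

noncomputable abbrev cc (n : ℕ) : Coc (BX n) := colCoc (bcol n)

def Pt : Type := (k : ℕ) × Part (sz k)

def an {s : ℕ} (a : AA s) : Part s := Sum.inl a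

def ve {s : ℕ} (n : ℕ) (x : BX n) (a : AA s) : Part s := Sum.inr ⟨n, x, a⟩

structure PLip (R s : ℕ) (K : ℝ) (f : Part s → ℝ) : Prop where
  v : ∀ (n : ℕ) (x : BX n) (a : AA s) (i : Fin 2),
    |f (ve n x a) - f (ve n ((of i : GG) • x) (ev s ((cc n).lam (of i) x) * a))| ≤ K
  a : ∀ (n : ℕ) (x : BX n) (a : AA s), |f (ve n x a) - f (an a)| ≤ K * R
  aa : ∀ a b : AA s, |f (an a) - f (an b)| ≤ K * s

structure ELip (K : ℝ) (f : Pt → ℝ) : Prop where
  part : ∀ k, PLip (k + 1) (sz k) K (fun q => f ⟨k, q⟩)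
  cross : ∀ k l, |f ⟨k, an 1⟩ - f ⟨l, an 1⟩| ≤ K

lemma PLip.const {R s : ℕ} {K : ℝ} (hK : 0 ≤ K) (c : ℝ) : PLip R s K (fun _ => c) where
  v := fun _ _ _ _ => by rw [sub_self, abs_zero]; exact hK
  a := fun _ _ _ => by rw [sub_self, abs_zero]; positivity
  aa := fun _ _ => by rw [sub_self, abs_zero]; positivity

lemma ELip.const {K : ℝ} (hK : 0 ≤ K) (c : ℝ) : ELip K (fun _ => c) where
  part := fun _ => PLip.const hK c
  cross := fun _ _ => by rw [sub_self, abs_zero]; exact hK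

lemma PLip.base {R s : ℕ} {K : ℝ} {f : Part s → ℝ} (h : PLip R s K f) (hK : 0 ≤ K) (q : Part s) :
    |f q - f (an 1)| ≤ K * (R + s) := by
  rcases q with a | ⟨n, x, a⟩
  · have h1 := h.aa a 1
    have h2 : K * (s : ℝ) ≤ K * (R + s) := by
      apply mul_le_mul_of_nonneg_left _ hK
      have : (0 : ℝ) ≤ R := Nat.cast_nonneg R
      linarith
    exact h1.trans h2
  · have h1 := h.aa a 1
    have h2 := h.a n x a
    have h3 : f (Sum.inr ⟨n, x, a⟩) - f (an 1) =
      (f (ve n x a) - f (an a)) + (f (an a) - f (an 1)) := by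
      unfold ve
      ring
    rw [h3, mul_add K]
    exact (abs_add_le _ _).trans (add_le_add h2 h1)

lemma ELip.bdd {f : Pt → ℝ} (h : ELip 1 f) (p q : Pt) :
    |f p - f q| ≤ ((p.1 + 1 : ℕ) + sz p.1 : ℝ) + 1 + ((q.1 + 1 : ℕ) + sz q.1 : ℝ) := by
  obtain ⟨k, p⟩ := p
  obtain ⟨l, q⟩ := q
  have h1 := (h.part k).base zero_le_one p
  have h2 := (h.part l).base zero_le_one q
  have h3 := h.cross k l
  rw [one_mul] at h1 h2
  have h4 : f ⟨k, p⟩ - f ⟨l, q⟩ = (f ⟨k, p⟩ - f ⟨k, an 1⟩) + (f ⟨k, an 1⟩ - f ⟨l, an 1⟩) -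
      (f ⟨l, q⟩ - f ⟨l, an 1⟩) := by ring
  rw [h4]
  refine (abs_sub _ _).trans ?_
  refine add_le_add ((abs_add_le _ _).trans (add_le_add h1 h3)) h2

noncomputable def ds (p q : Pt) : ℝ := ⨆ f : {f : Pt → ℝ // ELip 1 f}, |f.1 p - f.1 q|

lemma bddAbove_ds (p q : Pt) :
    BddAbove (Set.range fun f : {f : Pt → ℝ // ELip 1 f} => |f.1 p - f.1 q|) := by
  refine ⟨((p.1 + 1 : ℕ) + sz p.1 : ℝ) + 1 + ((q.1 + 1 : ℕ) + sz q.1 : ℝ), ?_⟩
  rintro _ ⟨f, rfl⟩
  exact f.2.bdd p q

instance nonempty_fam : Nonempty {f : Pt → ℝ // ELip 1 f} := ⟨⟨fun _ => 0, ELip.const zero_le_one 0⟩⟩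

lemma le_ds {f : Pt → ℝ} (hf : ELip 1 f) (p q : Pt) : |f p - f q| ≤ ds p q :=
  le_ciSup (bddAbove_ds p q) (⟨f, hf⟩ : {f : Pt → ℝ // ELip 1 f})

lemma ds_le {p q : Pt} {C : ℝ} (h : ∀ f : Pt → ℝ, ELip 1 f → |f p - f q| ≤ C) : ds p q ≤ C :=
  ciSup_le fun f => h f.1 f.2

open Classical in
lemma one_le_ds {p q : Pt} (h : p ≠ q) : 1 ≤ ds p q := by
  have hab : ∀ x y : Pt, |(if x = p then (1 : ℝ) else 0) - (if y = p then (1 : ℝ) else 0)| ≤ 1 := by
    intro x y
    split_ifs <;> norm_num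
  have hf : ELip 1 (fun x : Pt => if x = p then (1 : ℝ) else 0) := by
    refine ⟨fun k => ⟨fun n x a i => hab _ _, fun n x a => (hab _ _).trans ?_,
      fun a b => (hab _ _).trans ?_⟩, fun k l => hab _ _⟩
    · rw [one_mul]
      push_cast
      have : (0 : ℝ) ≤ k := Nat.cast_nonneg k
      linarith
    · rw [one_mul]
      exact_mod_cast sz_pos k
  have h1 := le_ds hf p q
  rw [if_pos rfl, if_neg (Ne.symm h), sub_zero, abs_one] at h1
  exact h1

noncomputable instance : MetricSpace Pt where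
  dist := ds
  dist_self := fun p => by
    apply le_antisymm
    · exact ds_le fun f _ => by rw [sub_self, abs_zero]
    · exact (abs_nonneg _).trans (le_ds (ELip.const zero_le_one 0) p p)
  dist_comm := fun p q => by
    apply le_antisymm
    · exact ds_le fun f hf => by rw [abs_sub_comm]; exact le_ds hf q p
    · exact ds_le fun f hf => by rw [abs_sub_comm]; exact le_ds hf p q
  dist_triangle := fun p q r => ds_le fun f hf => by
    have h1 := le_ds hf p q
    have h2 := le_ds hf q r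
    exact (abs_sub_le _ (f q) _).trans (add_le_add h1 h2)
  eq_of_dist_eq_zero := fun {p q} h => by
    by_contra hne
    have := one_le_ds hne
    have h' : ds p q = 0 := h
    linarith

lemma dist_eq (p q : Pt) : dist p q = ds p q := rfl

lemma ELip.scale {K : ℝ} (hK : 0 < K) {f : Pt → ℝ} (h : ELip K f) : ELip 1 (fun p => f p / K) := by
  have key : ∀ {a b c : ℝ}, |a - b| ≤ K * c → |a / K - b / K| ≤ c := by
    intro a b c hab
    rw [← sub_div, abs_div, abs_of_pos hK, div_le_iff₀ hK, mul_comm c K]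
    exact hab
  refine ⟨fun k => ⟨fun n x a i => key ?_, fun n x a => ?_, fun a b => ?_⟩, fun k l => key ?_⟩
  · rw [mul_one]
    exact (h.part k).v n x a i
  · rw [one_mul]
    exact key ((h.part k).a n x a)
  · rw [one_mul]
    exact key ((h.part k).aa a b)
  · rw [mul_one]
    exact h.cross k l

lemma ELip.lip {K : ℝ} (hK : 0 < K) {f : Pt → ℝ} (h : ELip K f) (p q : Pt) :
    |f p - f q| ≤ K * dist p q := by
  have h1 := le_ds (h.scale hK) p q
  rw [← sub_div, abs_div, abs_of_pos hK, div_le_iff₀ hK, mul_comm] at h1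
  exact h1

lemma plip_letter {R s : ℕ} {K : ℝ} {f : Part s → ℝ} (h : PLip R s K f) (n : ℕ) (x : BX n)
    (a : AA s) (e : Fin 2 × Bool) :
    |f (ve n x a) - f (ve n ((mk [e] : GG) • x) (ev s ((cc n).lam (mk [e]) x) * a))| ≤ K := by
  rcases e with ⟨i, b⟩
  cases b
  · have h1 := h.v n ((mk [(i, false)] : GG) • x) (ev s ((cc n).lam (mk [(i, false)]) x) * a) i
    have h2 : (of i : GG) • (mk [(i, false)] : GG) • x = x := act_back (i, false) x
    have h3 := lam_back (cc n) (i, false) x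
    have h4 : (cc n).lam (of i) ((mk [(i, false)] : GG) • x) *
      (cc n).lam (mk [(i, false)]) x = 1 := h3
    rw [h2, ← mul_assoc, ← map_mul, h4, map_one, one_mul] at h1
    rw [abs_sub_comm]
    exact h1
  · exact h.v n x a i

instance : Countable Pt := inferInstanceAs (Countable ((k : ℕ) × Part (sz k)))

instance : Nonempty Pt := ⟨⟨0, an 1⟩⟩

lemma uniformlyDiscrete_Pt : UniformlyDiscrete Pt :=
  ⟨1, one_pos, fun _ _ h => one_le_ds h⟩

open Classical in
noncomputable def ext (k : ℕ) (f : Part (sz k) → ℝ) (p : Pt) : ℝ :=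
  if h : p.1 = k then f (h ▸ p.2) else f (an 1)

lemma ext_same (k : ℕ) (f : Part (sz k) → ℝ) (q : Part (sz k)) : ext k f ⟨k, q⟩ = f q := by
  unfold ext
  rw [dif_pos rfl]

lemma ext_other (k l : ℕ) (h : l ≠ k) (f : Part (sz k) → ℝ) (q : Part (sz l)) :
    ext k f ⟨l, q⟩ = f (an 1) := by
  unfold ext
  rw [dif_neg h]

lemma ext_base (k l : ℕ) (f : Part (sz k) → ℝ) : ext k f ⟨l, an 1⟩ = f (an 1) := by
  by_cases h : l = k
  · subst h
    exact ext_same _ _ _
  · exact ext_other _ _ h _ _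

lemma ext_elip (k : ℕ) (f : Part (sz k) → ℝ) (K : ℝ) (hK : 0 ≤ K)
    (h : PLip (k + 1) (sz k) K f) : ELip K (ext k f) where
  part := fun l => by
    by_cases hl : l = k
    · subst hl
      have : (fun q => ext l f ⟨l, q⟩) = f := by
        funext q
        exact ext_same _ _ _
      rw [this]
      exact h
    · have : (fun q => ext k f ⟨l, q⟩) = fun _ => f (an 1) := by
        funext q
        exact ext_other _ _ hl _ _
      rw [this]
      exact PLip.const hK _
  cross := fun l m => by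
    rw [ext_base, ext_base, sub_self, abs_zero]
    exact hK

end Vale.Agent.P090
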