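import Mathlib
import Vale.Agent.P090.Space
import Vale.Agent.P090.CertDef

namespace Vale.Agent.P090

open FreeGroup (mk of IsReduced)

noncomputable def Fpart (s n : ℕ) (x : BX n) (g : AA s) (e : Fin 2 × Bool) : Part s → ℝ
  | Sum.inl h => Fp (cc n) unitCoc s e x () (g * h⁻¹)
  | Sum.inr ⟨m, y, h⟩ => Fp (cc n) (cc m) s e x y (g * h⁻¹)

noncomputable def gpart (N s n : ℕ) (x : BX n) (g : AA s) : Part s → ℝ
  | Sum.inl h => ∑ e : Fin 2 × Bool, Fp (cc n) unitCoc s e x () (g * h⁻¹)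
  | Sum.inr ⟨m, y, h⟩ =>
    if m ≤ N then ∑ e : Fin 2 × Bool, Fp (cc n) (cc m) s e x y (g * h⁻¹)
    else push s (phi s) (g * h⁻¹)

lemma mul_shift {s : ℕ} (g h l : AA s) : g * (l * h)⁻¹ = (g * h⁻¹) * l⁻¹ := by
  group

lemma abs_sub_le_of_abs {a b c : ℝ} (ha : |a| ≤ c) (hb : |b| ≤ c) : |a - b| ≤ 2 * c := by
  refine (abs_sub _ _).trans ?_
  linarith

lemma Fpart_plip (k n : ℕ) (x : BX n) (g : AA (sz k)) (e : Fin 2 × Bool) :
    PLip (k + 1) (sz k) (1 / ((k + 1 : ℕ) : ℝ)) (Fpart (sz k) n x g e) where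
  v := fun m y a i => by
    have h := Fp_right (cc n) (cc m) (sz k) (sz_pos k) e (i, true) x y (g * a⁻¹)
      (norm_lam_letter (bcol m) (i, true) y).le
    have h1 : Fpart (sz k) n x g e (ve m ((of i : GG) • y) (ev (sz k) ((cc m).lam (of i) y) * a)) =
        Fp (cc n) (cc m) (sz k) e x ((mk [(i, true)] : GG) • y)
          (g * a⁻¹ * (ev (sz k) ((cc m).lam (mk [(i, true)]) y))⁻¹) := by
      rw [← mul_shift]
      rfl
    have h2 : Fpart (sz k) n x g e (ve m y a) = Fp (cc n) (cc m) (sz k) e x y (g * a⁻¹) := rfl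
    rw [h1, h2, abs_sub_comm]
    refine h.trans ?_
    have h3 : ((k + 1 : ℕ) : ℝ) ≤ sz k := by exact_mod_cast le_sz k
    have h4 : (0 : ℝ) < ((k + 1 : ℕ) : ℝ) := by positivity
    apply one_div_le_one_div_of_le h4
    linarith
  a := fun m y a => by
    have h4 : ((k + 1 : ℕ) : ℝ) ≠ 0 := by positivity
    rw [one_div, inv_mul_cancel₀ h4]
    have h := abs_sub_le_of_abs (abs_Fp_le (cc n) (cc m) (sz k) e x y (g * a⁻¹))
      (abs_Fp_le (cc n) unitCoc (sz k) e x () (g * a⁻¹))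
    norm_num at h
    exact h
  aa := fun a b => by
    have h := abs_sub_le_of_abs (abs_Fp_le (cc n) unitCoc (sz k) e x () (g * a⁻¹))
      (abs_Fp_le (cc n) unitCoc (sz k) e x () (g * b⁻¹))
    norm_num at h
    refine h.trans ?_
    have h3 : ((k + 1 : ℕ) : ℝ) ≤ sz k := by exact_mod_cast le_sz k
    have h4 : (0 : ℝ) < ((k + 1 : ℕ) : ℝ) := by positivity
    rw [one_div, inv_mul_eq_div, le_div_iff₀ h4, one_mul]
    exact h3

lemma four_le {k : ℕ} {c : ℝ} (hc : c ≤ 4 / (sz k : ℝ)) :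
    c ≤ 4 / (sz k : ℝ) * ((k + 1 : ℕ) : ℝ) := by
  refine hc.trans ?_
  apply le_mul_of_one_le_right (by positivity)
  exact_mod_cast Nat.le_add_left 1 k

lemma gpart_plip (N k n : ℕ) (x : BX n) (g : AA (sz k)) (hx : ∀ m ≤ N, ¬ BadX n m (sz k) x) :
    PLip (k + 1) (sz k) (4 / (sz k : ℝ)) (gpart N (sz k) n x g) where
  v := fun m y a i => by
    have h0 : (0 : ℝ) < sz k := by exact_mod_cast sz_pos k
    by_cases hm : m ≤ N
    · have h := sum_Fp_right (cc n) (cc m) (sz k) (sz_pos k) (i, true) x y (g * a⁻¹)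
        (norm_lam_letter (bcol m) (i, true) y).le
      have h1 : gpart N (sz k) n x g (ve m ((of i : GG) • y)
          (ev (sz k) ((cc m).lam (of i) y) * a)) =
          ∑ e : Fin 2 × Bool, Fp (cc n) (cc m) (sz k) e x ((mk [(i, true)] : GG) • y)
            (g * a⁻¹ * (ev (sz k) ((cc m).lam (mk [(i, true)]) y))⁻¹) := by
        rw [← mul_shift]
        exact if_pos hm
      have h2 : gpart N (sz k) n x g (ve m y a) =
          ∑ e : Fin 2 × Bool, Fp (cc n) (cc m) (sz k) e x y (g * a⁻¹) := if_pos hm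
      rw [h1, h2, abs_sub_comm]
      refine h.trans ?_
      apply div_le_div_of_nonneg_right _ h0.le
      norm_num
    · have h := push_phi_right (sz k) (sz_pos k) ((cc m).lam (mk [(i, true)]) y)⁻¹
        (by rw [FreeGroup.norm_inv_eq]; exact (norm_lam_letter (bcol m) (i, true) y).le) (g * a⁻¹)
      have h1 : gpart N (sz k) n x g (ve m ((of i : GG) • y)
          (ev (sz k) ((cc m).lam (of i) y) * a)) =
          push (sz k) (phi (sz k)) (g * a⁻¹ * (ev (sz k) ((cc m).lam (mk [(i, true)]) y))⁻¹) := by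
        rw [← mul_shift]
        exact if_neg hm
      have h2 : gpart N (sz k) n x g (ve m y a) = push (sz k) (phi (sz k)) (g * a⁻¹) := if_neg hm
      rw [h1, h2, abs_sub_comm, ← map_inv]
      refine h.trans ?_
      apply div_le_div_of_nonneg_right _ h0.le
      norm_num
  a := fun m y a => by
    apply four_le
    have hu := sum_Fp_sub (cc n) unitCoc (sz k) (sz_pos k) x () (g * a⁻¹)
      (fun e => (norm_lam_letter (bcol n) e x).le) (fun w _ => not_bad_unit (bcol n) x () w)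
    have h3 : gpart N (sz k) n x g (an a) =
      ∑ e : Fin 2 × Bool, Fp (cc n) unitCoc (sz k) e x () (g * a⁻¹) := rfl
    rw [h3]
    have h0 : (0 : ℝ) < sz k := by exact_mod_cast sz_pos k
    have h5 : (4 : ℝ) / (sz k : ℝ) = 2 / (sz k : ℝ) + 2 / (sz k : ℝ) := by ring
    have h6 : (0 : ℝ) ≤ 2 / (sz k : ℝ) := by positivity
    by_cases hm : m ≤ N
    · have hv := sum_Fp_sub (cc n) (cc m) (sz k) (sz_pos k) x y (g * a⁻¹)
        (fun e => (norm_lam_letter (bcol n) e x).le)
        (fun w hw hb => hx m hm ⟨y, w, hw, hb⟩)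
      have h2 : gpart N (sz k) n x g (ve m y a) =
          ∑ e : Fin 2 × Bool, Fp (cc n) (cc m) (sz k) e x y (g * a⁻¹) := if_pos hm
      rw [h2, h5]
      rw [abs_sub_comm] at hu
      exact (abs_sub_le _ _ _).trans (add_le_add hv hu)
    · have h2 : gpart N (sz k) n x g (ve m y a) = push (sz k) (phi (sz k)) (g * a⁻¹) := if_neg hm
      rw [h2, abs_sub_comm, h5]
      linarith
  aa := fun a b => by
    have h0 : (sz k : ℝ) ≠ 0 := by
      have : (0 : ℝ) < sz k := by exact_mod_cast sz_pos k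
      exact this.ne'
    rw [div_mul_cancel₀ _ h0]
    have h := abs_sub_le_of_abs (abs_sum_Fp_le (cc n) unitCoc (sz k) x () (g * a⁻¹))
      (abs_sum_Fp_le (cc n) unitCoc (sz k) x () (g * b⁻¹))
    norm_num at h
    exact h

def lvl {s : ℕ} : Part s → ℕ
  | Sum.inl _ => 0
  | Sum.inr ⟨m, _, _⟩ => m

def SS (N : ℕ) : Set Pt := {p | lvl p.2 ≤ N}

lemma gpart_eq (N s n : ℕ) (x : BX n) (g : AA s) (q : Part s) (hq : lvl q ≤ N) :
    gpart N s n x g q = ∑ e : Fin 2 × Bool, Fpart s n x g e q := by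
  rcases q with h | ⟨m, y, h⟩
  · rfl
  · exact if_pos hq

lemma Fpart_left (k n : ℕ) (x : BX n) (g : AA (sz k)) (e : Fin 2 × Bool) (q : Part (sz k)) :
    Fpart (sz k) n ((mk [e] : GG) • x) (ev (sz k) ((cc n).lam (mk [e]) x) * g) (e.1, !e.2) q =
      - Fpart (sz k) n x g e q := by
  rcases q with h | ⟨m, y, h⟩
  · have h1 := Fp_left (cc n) unitCoc (sz k) (sz_pos k) e x () (g * h⁻¹)
      (norm_lam_letter (bcol n) e x).le
    rw [← mul_assoc] at h1
    exact h1
  · have h1 := Fp_left (cc n) (cc m) (sz k) (sz_pos k) e x y (g * h⁻¹)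
      (norm_lam_letter (bcol n) e x).le
    rw [← mul_assoc] at h1
    exact h1

lemma ext_neg (k : ℕ) (f f' : Part (sz k) → ℝ) (h : ∀ q, f q = - f' q) (p : Pt) :
    ext k f p = - ext k f' p := by
  unfold ext
  split_ifs
  · exact h _
  · exact h _

lemma ext_sum (k : ℕ) (f : (Fin 2 × Bool) → Part (sz k) → ℝ) (g : Part (sz k) → ℝ) (N : ℕ)
    (h : ∀ q, lvl q ≤ N → g q = ∑ e, f e q) (p : Pt) (hp : p ∈ SS N) :
    ext k g p = ∑ e, ext k (f e) p := by
  obtain ⟨l, q⟩ := p
  by_cases hl : l = k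
  · subst hl
    simp only [ext_same]
    exact h q hp
  · simp only [ext_other _ _ hl]
    exact h _ (Nat.zero_le N)

lemma st_back (k n : ℕ) (x : BX n) (g : AA (sz k)) (e : Fin 2 × Bool) :
    ((mk [(e.1, !e.2)] : GG) • (mk [e] : GG) • x,
      ev (sz k) ((cc n).lam (mk [(e.1, !e.2)]) ((mk [e] : GG) • x)) *
        (ev (sz k) ((cc n).lam (mk [e]) x) * g)) = (x, g) := by
  rw [act_back, ← mul_assoc, ← map_mul, lam_back, map_one, one_mul]

theorem cert_exists (k N : ℕ) :
    Nonempty (Cert {p : Pt | p.1 = k} (SS N) (fun a : AA (sz k) => (⟨k, an a⟩ : Pt))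
      ((k + 1 : ℕ) : ℝ) (sz k : ℝ) (1 / ((k + 1 : ℕ) : ℝ))) := by
  classical
  obtain ⟨n, hn, hcard⟩ := exists_few_bad N (sz k) (1 / ((k + 1 : ℕ) : ℝ)) (by positivity)
  have hk : (0 : ℝ) < 1 / ((k + 1 : ℕ) : ℝ) := by positivity
  have h0 : (0 : ℝ) < sz k := by exact_mod_cast sz_pos k
  haveI : Fintype (AA (sz k)) := Fintype.ofFinite _
  exact ⟨{
    V := BX n × AA (sz k)
    fin := inferInstance
    ne := inferInstance
    pt := fun v => ⟨k, ve n v.1 v.2⟩
    an := fun v => v.2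
    st := fun e v => ((mk [e] : GG) • v.1, ev (sz k) ((cc n).lam (mk [e]) v.1) * v.2)
    st_st := fun e v => st_back k n v.1 v.2 e
    pt_mem := fun v => rfl
    dist_st := fun e v => ds_le fun f hf => plip_letter (hf.part k) n v.1 v.2 e
    dist_an := fun v => ds_le fun f hf => by
      have := (hf.part k).a n v.1 v.2
      rw [one_mul] at this
      exact this
    anc_mem := fun a => Nat.zero_le N
    F := fun v e => ext k (Fpart (sz k) n v.1 v.2 e)
    F_anti := fun v e p => ext_neg k _ _ (Fpart_left k n v.1 v.2 e) p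
    F_lip := fun v e p q => (ext_elip k _ _ hk.le (Fpart_plip k n v.1 v.2 e)).lip hk p q
    F_val := fun v => by
      simp only [ext_same]
      have h1 := sum_Fp_one (cc n) unitCoc (sz k) (sz_pos k) v.1 ()
        (fun e => norm_lam_letter (bcol n) e v.1) (not_bad_unit (bcol n) v.1 () 1)
      rw [← mul_inv_cancel v.2] at h1
      exact h1
    B := (Finset.univ.filter (fun x : BX n => ∃ m ≤ N, BadX n m (sz k) x)) ×ˢ Finset.univ
    B_card := by
      rw [Finset.card_product, Fintype.card_prod, Finset.card_univ]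
      push_cast
      rw [← mul_assoc]
      apply mul_le_mul_of_nonneg_right _ (Nat.cast_nonneg _)
      push_cast at hcard
      exact hcard
    g := fun v => ext k (gpart N (sz k) n v.1 v.2)
    g_lip := fun v hv p q => by
      have hx : ∀ m ≤ N, ¬ BadX n m (sz k) v.1 := by
        intro m hm hb
        apply hv
        rw [Finset.mem_product]
        exact ⟨Finset.mem_filter.2 ⟨Finset.mem_univ _, m, hm, hb⟩, Finset.mem_univ _⟩
      have h4 : (0 : ℝ) < 4 / (sz k : ℝ) := by positivity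
      exact (ext_elip k _ _ h4.le (gpart_plip N k n v.1 v.2 hx)).lip h4 p q
    g_eq := fun v _ p hp => ext_sum k _ _ N (fun q hq => gpart_eq N (sz k) n v.1 v.2 q hq) p hp }⟩

end Vale.Agent.P090
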