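import Mathlib

namespace Vale.Agent.P090.Dual

def LipVan (M : Type) [MetricSpace M] (o : M) : Submodule ℝ (M → ℝ) where
  carrier := {f | f o = 0 ∧ ∃ K : ℝ, ∀ x y, |f x - f y| ≤ K * dist x y}
  add_mem' := by
    rintro f g ⟨hf, K, hK⟩ ⟨hg, L, hL⟩
    refine ⟨by simp [hf, hg], K + L, fun x y => ?_⟩
    have h : (f + g) x - (f + g) y = (f x - f y) + (g x - g y) := by
      simp only [Pi.add_apply]
      ring
    rw [h, add_mul]
    exact (abs_add_le _ _).trans (add_le_add (hK x y) (hL x y))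
  zero_mem' := ⟨rfl, 0, fun x y => by simp⟩
  smul_mem' := by
    rintro c f ⟨hf, K, hK⟩
    refine ⟨by simp [hf], |c| * K, fun x y => ?_⟩
    have h : (c • f) x - (c • f) y = c * (f x - f y) := by
      simp only [Pi.smul_apply, smul_eq_mul]
      ring
    rw [h, abs_mul, mul_assoc]
    exact mul_le_mul_of_nonneg_left (hK x y) (abs_nonneg c)

def Lip0 (M : Type) [MetricSpace M] (o : M) : Type := ↥(LipVan M o)

variable {M : Type} [MetricSpace M] {o : M}

noncomputable def lipConst (f : M → ℝ) : ℝ :=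
  sInf {K : ℝ | 0 ≤ K ∧ ∀ x y, |f x - f y| ≤ K * dist x y}

section

local instance : AddCommGroup (Lip0 M o) := Submodule.addCommGroup (LipVan M o)

local instance : Module ℝ (Lip0 M o) := Submodule.module (LipVan M o)

noncomputable local instance : Norm (Lip0 M o) := ⟨fun f => lipConst f.1⟩

lemma bddBelow_set (f : M → ℝ) : BddBelow {K : ℝ | 0 ≤ K ∧ ∀ x y, |f x - f y| ≤ K * dist x y} :=
  ⟨0, fun _ hK => hK.1⟩

lemma set_nonempty (f : Lip0 M o) :
    {K : ℝ | 0 ≤ K ∧ ∀ x y, |f.1 x - f.1 y| ≤ K * dist x y}.Nonempty := by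
  obtain ⟨K, hK⟩ := f.2.2
  exact ⟨|K|, abs_nonneg K, fun x y => (hK x y).trans
    (mul_le_mul_of_nonneg_right (le_abs_self K) dist_nonneg)⟩

lemma lipConst_nonneg (f : Lip0 M o) : 0 ≤ lipConst f.1 :=
  le_csInf (set_nonempty f) fun _ hK => hK.1

lemma lipConst_le (f : M → ℝ) {K : ℝ} (hK : 0 ≤ K)
    (h : ∀ x y, |f x - f y| ≤ K * dist x y) : lipConst f ≤ K :=
  csInf_le (bddBelow_set f) ⟨hK, h⟩

lemma abs_sub_le_lipConst (f : Lip0 M o) (x y : M) :
    |f.1 x - f.1 y| ≤ lipConst f.1 * dist x y := by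
  rcases (dist_nonneg (x := x) (y := y)).eq_or_lt with h | h
  · have hxy : x = y := dist_eq_zero.1 h.symm
    subst hxy
    simp
  · rw [← div_le_iff₀ h]
    refine le_csInf (set_nonempty f) fun K hK => ?_
    rw [div_le_iff₀ h]
    exact hK.2 x y

lemma core : NormedSpace.Core ℝ (Lip0 M o) where
  norm_nonneg := lipConst_nonneg
  norm_smul := by
    intro c f
    have hs : ∀ x, (c • f).1 x = c * f.1 x := fun _ => rfl
    change lipConst (c • f).1 = ‖c‖ * lipConst f.1
    apply le_antisymm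
    · refine lipConst_le _ (mul_nonneg (norm_nonneg c) (lipConst_nonneg f)) fun x y => ?_
      rw [hs, hs, ← mul_sub, abs_mul, Real.norm_eq_abs, mul_assoc]
      exact mul_le_mul_of_nonneg_left (abs_sub_le_lipConst f x y) (abs_nonneg c)
    · rcases eq_or_ne c 0 with rfl | hc
      · rw [norm_zero, zero_mul]
        exact lipConst_nonneg _
      · have hc' : 0 < ‖c‖ := norm_pos_iff.2 hc
        rw [← le_div_iff₀' hc']
        refine lipConst_le _ (div_nonneg (lipConst_nonneg _) hc'.le) fun x y => ?_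
        have h1 := abs_sub_le_lipConst (c • f) x y
        rw [hs, hs, ← mul_sub, abs_mul, ← Real.norm_eq_abs c] at h1
        rw [div_mul_eq_mul_div, le_div_iff₀' hc']
        exact h1
  norm_triangle := by
    intro f g
    have ha : ∀ x, (f + g).1 x = f.1 x + g.1 x := fun _ => rfl
    change lipConst (f + g).1 ≤ lipConst f.1 + lipConst g.1
    refine lipConst_le _ (add_nonneg (lipConst_nonneg f) (lipConst_nonneg g)) fun x y => ?_
    have h : (f + g).1 x - (f + g).1 y = (f.1 x - f.1 y) + (g.1 x - g.1 y) := by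
      rw [ha, ha]
      ring
    rw [h, add_mul]
    exact (abs_add_le _ _).trans
      (add_le_add (abs_sub_le_lipConst f x y) (abs_sub_le_lipConst g x y))
  norm_eq_zero_iff := by
    intro f
    change lipConst f.1 = 0 ↔ f = 0
    constructor
    · intro h
      apply Subtype.ext
      funext x
      have h1 := abs_sub_le_lipConst f x o
      rw [h, zero_mul, f.2.1, sub_zero] at h1
      exact abs_nonpos_iff.1 h1
    · rintro rfl
      refine le_antisymm (lipConst_le _ le_rfl fun x y => ?_) (lipConst_nonneg 0)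
      change |(0 : ℝ) - 0| ≤ _
      simp

noncomputable instance : NormedAddCommGroup (Lip0 M o) := NormedAddCommGroup.ofCore core

noncomputable instance : NormedSpace ℝ (Lip0 M o) := NormedSpace.ofCore core

end

def evalLin (o x : M) : Lip0 M o →ₗ[ℝ] ℝ where
  toFun f := f.1 x
  map_add' _ _ := rfl
  map_smul' _ _ := rfl

lemma evalLin_bound (o x : M) (f : Lip0 M o) : ‖evalLin o x f‖ ≤ dist x o * ‖f‖ := by
  have h := abs_sub_le_lipConst f x o
  rw [f.2.1, sub_zero, mul_comm] at h
  exact h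

noncomputable def evalAt (o x : M) : StrongDual ℝ (Lip0 M o) :=
  (evalLin o x).mkContinuous (dist x o) (evalLin_bound o x)

def ClosedSpan {X : Type} [NormedAddCommGroup X] [NormedSpace ℝ X] (s : Set X) : Type :=
  ↥(Submodule.span ℝ s).topologicalClosure

noncomputable instance {X : Type} [NormedAddCommGroup X] [NormedSpace ℝ X] (s : Set X) :
    NormedAddCommGroup (ClosedSpan s) :=
  Submodule.normedAddCommGroup (Submodule.span ℝ s).topologicalClosure

noncomputable instance {X : Type} [NormedAddCommGroup X] [NormedSpace ℝ X] (s : Set X) :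
    NormedSpace ℝ (ClosedSpan s) :=
  Submodule.normedSpace (Submodule.span ℝ s).topologicalClosure

abbrev LipschitzFree (M : Type) [MetricSpace M] (o : M) : Type :=
  ClosedSpan (Set.range (evalAt (M := M) o))

def UniformlyDiscrete (M : Type) [MetricSpace M] : Prop :=
  ∃ c : ℝ, 0 < c ∧ ∀ x y : M, x ≠ y → c ≤ dist x y

def HasBAP (X : Type) [NormedAddCommGroup X] [NormedSpace ℝ X] : Prop :=
  ∃ lam : ℝ, 1 ≤ lam ∧ ∀ C : Set X, IsCompact C → ∀ ε : ℝ, 0 < ε →
    ∃ T : X →L[ℝ] X, FiniteDimensional ℝ T.range ∧ ‖T‖ ≤ lam ∧ ∀ u ∈ C, ‖T u - u‖ < ε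

end Vale.Agent.P090.Dual
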