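import Mathlib

namespace Vale.Agent.P090.Ell

def UnitBallLip0 (M : Type) [MetricSpace M] (o : M) : Type :=
  {f : M → ℝ // f o = 0 ∧ ∀ x y, |f x - f y| ≤ dist x y}

abbrev BoundedFamilies (I : Type) : Type := lp (fun _ : I => ℝ) ⊤

noncomputable def delta {M : Type} [MetricSpace M] (o x : M) :
    BoundedFamilies (UnitBallLip0 M o) :=
  ⟨fun f => f.1 x, memℓp_infty ⟨dist x o, by
    rintro _ ⟨f, rfl⟩
    have h := f.2.2 x o
    rwa [f.2.1, sub_zero] at h⟩⟩

def ClosedSpan {X : Type} [NormedAddCommGroup X] [NormedSpace ℝ X] (s : Set X) : Type :=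
  ↥(Submodule.span ℝ s).topologicalClosure

noncomputable instance {X : Type} [NormedAddCommGroup X] [NormedSpace ℝ X] (s : Set X) :
    NormedAddCommGroup (ClosedSpan s) :=
  Submodule.normedAddCommGroup (Submodule.span ℝ s).topologicalClosure

noncomputable instance {X : Type} [NormedAddCommGroup X] [NormedSpace ℝ X] (s : Set X) :
    NormedSpace ℝ (ClosedSpan s) :=
  Submodule.normedSpace (Submodule.span ℝ s).topologicalClosure

abbrev LipschitzFree (M : Type) [MetricSpace M] (o : M) : Type :=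
  ClosedSpan (Set.range (delta (M := M) o))

def UniformlyDiscrete (M : Type) [MetricSpace M] : Prop :=
  ∃ c : ℝ, 0 < c ∧ ∀ x y : M, x ≠ y → c ≤ dist x y

def HasBAP (X : Type) [NormedAddCommGroup X] [NormedSpace ℝ X] : Prop :=
  ∃ lam : ℝ, 1 ≤ lam ∧ ∀ C : Set X, IsCompact C → ∀ ε : ℝ, 0 < ε →
    ∃ T : X →L[ℝ] X, FiniteDimensional ℝ T.range ∧ ‖T‖ ≤ lam ∧ ∀ u ∈ C, ‖T u - u‖ < ε

end Vale.Agent.P090.Ell
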