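import Mathlib
import Vale.Agent.P090.CertDef

namespace Vale.Agent.P090

section

variable {M : Type} [MetricSpace M] {o : M} {X : Type} [NormedAddCommGroup X] [NormedSpace ℝ X]

lemma exists_span_level (D : FreeLike o X) (S : ℕ → Set M) (hS : Monotone S)
    (hSU : ∀ p, ∃ N, p ∈ S N) (x : X) (hx : x ∈ Submodule.span ℝ (Set.range D.d)) :
    ∃ N, x ∈ Submodule.span ℝ (D.d '' S N) := by
  have hmono : ∀ {N N' : ℕ}, N ≤ N' → ∀ {y : X}, y ∈ Submodule.span ℝ (D.d '' S N) →
      y ∈ Submodule.span ℝ (D.d '' S N') := fun h _ hy =>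
    Submodule.span_mono (Set.image_mono (hS h)) hy
  induction hx using Submodule.span_induction with
  | mem x h =>
    obtain ⟨p, rfl⟩ := h
    obtain ⟨N, hN⟩ := hSU p
    exact ⟨N, Submodule.subset_span ⟨p, hN, rfl⟩⟩
  | zero => exact ⟨0, Submodule.zero_mem _⟩
  | add x y _ _ hx hy =>
    obtain ⟨N, hN⟩ := hx
    obtain ⟨N', hN'⟩ := hy
    exact ⟨max N N', Submodule.add_mem _ (hmono (le_max_left _ _) hN)
      (hmono (le_max_right _ _) hN')⟩
  | smul c x _ hx =>
    obtain ⟨N, hN⟩ := hx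
    exact ⟨N, Submodule.smul_mem _ c hN⟩

lemma exists_level (D : FreeLike o X) (P : Set M) (hP : Bornology.IsBounded P)
    (S : ℕ → Set M) (hS : Monotone S) (hSU : ∀ p, ∃ N, p ∈ S N) (ε : ℝ) (hε : 0 < ε)
    (T : X →L[ℝ] X) (hfin : FiniteDimensional ℝ T.range) :
    ∃ N, o ∈ S N ∧ ∀ p ∈ P, ∃ t ∈ Submodule.span ℝ (D.d '' S N), ‖T (D.d p) - t‖ ≤ ε := by
  have : ProperSpace ↥T.range := FiniteDimensional.proper_real _
  set Q : Set ↥T.range := (fun p => (⟨T (D.d p), ⟨D.d p, rfl⟩⟩ : ↥T.range)) '' P with hQ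
  have hQb : Bornology.IsBounded Q := by
    obtain ⟨C, hC⟩ := Metric.isBounded_iff.1 hP
    refine Metric.isBounded_iff.2 ⟨‖T‖ * C, ?_⟩
    rintro _ ⟨p, hp, rfl⟩ _ ⟨q, hq, rfl⟩
    change dist (T (D.d p)) (T (D.d q)) ≤ _
    rw [dist_eq_norm, ← map_sub]
    refine (T.le_opNorm _).trans ?_
    exact mul_le_mul_of_nonneg_left ((D.lip p q).trans (hC hp hq)) (norm_nonneg _)
  have htb : TotallyBounded Q := hQb.isCompact_closure.totallyBounded.subset subset_closure
  obtain ⟨t, htf, ht⟩ := Metric.totallyBounded_iff.1 htb (ε / 2) (by positivity)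
  have h1 : ∀ y : ↥T.range, ∃ x ∈ Submodule.span ℝ (Set.range D.d), ‖(y : X) - x‖ < ε / 2 := by
    intro y
    obtain ⟨x, hx, hxy⟩ := Metric.mem_closure_iff.1 (D.dense (y : X)) (ε / 2) (by positivity)
    rw [dist_eq_norm] at hxy
    exact ⟨x, hx, hxy⟩
  choose x hx hxy using h1
  have h2 : ∀ y, ∃ N, x y ∈ Submodule.span ℝ (D.d '' S N) := fun y =>
    exists_span_level D S hS hSU (x y) (hx y)
  choose N hN using h2
  obtain ⟨No, hNo⟩ := hSU o
  refine ⟨max No (htf.toFinset.sup N), hS (le_max_left _ _) hNo, fun p hp => ?_⟩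
  have h3 := ht ⟨p, hp, rfl⟩
  rw [Set.mem_iUnion₂] at h3
  obtain ⟨y, hy, hyp⟩ := h3
  refine ⟨x y, ?_, ?_⟩
  · have h4 : N y ≤ max No (htf.toFinset.sup N) :=
      (Finset.le_sup (f := N) (htf.mem_toFinset.2 hy)).trans (le_max_right _ _)
    exact Submodule.span_mono (Set.image_mono (hS h4)) (hN y)
  · rw [Metric.mem_ball] at hyp
    have h5 : ‖T (D.d p) - (y : X)‖ < ε / 2 := by
      rw [← dist_eq_norm]
      exact hyp
    have h6 := hxy y
    calc ‖T (D.d p) - x y‖ = ‖(T (D.d p) - (y : X)) + ((y : X) - x y)‖ := by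
          congr 1
          abel
      _ ≤ _ := norm_add_le _ _
      _ ≤ ε := by linarith

lemma span_eq_of (D : FreeLike o X) (S : Set M) (φ ψ : X →L[ℝ] ℝ)
    (h : ∀ p ∈ S, φ (D.d p) = ψ (D.d p)) (x : X) (hx : x ∈ Submodule.span ℝ (D.d '' S)) :
    φ x = ψ x := by
  have h1 : Set.EqOn (φ : X →ₗ[ℝ] ℝ) (ψ : X →ₗ[ℝ] ℝ) (D.d '' S) := by
    rintro _ ⟨p, hp, rfl⟩
    exact h p hp
  exact LinearMap.eqOn_span h1 hx

lemma sum_involution {V : Type} [Fintype V] (st : (Fin 2 × Bool) → V → V)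
    (st_st : ∀ e v, st (e.1, !e.2) (st e v) = v) (a : V → (Fin 2 × Bool) → ℝ) :
    ∑ v, ∑ e, a (st e v) (e.1, !e.2) = ∑ v, ∑ e, a v e := by
  rw [← Fintype.sum_prod_type', ← Fintype.sum_prod_type']
  let ι : V × (Fin 2 × Bool) → V × (Fin 2 × Bool) := fun q => (st q.2 q.1, (q.2.1, !q.2.2))
  have hι : Function.Involutive ι := by
    rintro ⟨v, e⟩
    change (st (e.1, !e.2) (st e v), (e.1, !(!e.2))) = (v, e)
    rw [st_st, Bool.not_not]
  exact Equiv.sum_comp hι.toPerm (fun q : V × (Fin 2 × Bool) => a q.1 q.2)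

theorem cert_ineq {M : Type} [MetricSpace M] (o : M) {X : Type} [NormedAddCommGroup X]
    [NormedSpace ℝ X] (D : FreeLike o X) {A : Type} (anc : A → M)
    (P : Set M) (hP : Bornology.IsBounded P)
    (S : ℕ → Set M) (hS : Monotone S) (hSU : ∀ p, ∃ N, p ∈ S N)
    (R s η lam ε : ℝ) (hR : 0 < R) (hs : 1 ≤ s) (hlam : 0 ≤ lam) (hε : 0 < ε)
    (hcert : ∀ N, Nonempty (Cert P (S N) anc R s η))
    (T : X →L[ℝ] X) (hfin : FiniteDimensional ℝ T.range)
    (hT : ‖T‖ ≤ lam) (hTa : ∀ a, ‖T (D.d (anc a)) - D.d (anc a)‖ ≤ ε) :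
    1 - 1 / s ≤ 2 * (lam + 2 * ε) / R + (4 / s) * (lam * R + 2 * ε)
      + η * (4 / R) * (lam * R + 2 * ε) := by
  classical
  obtain ⟨N, hoN, hlev⟩ := exists_level D P hP S hS hSU ε hε T hfin
  obtain ⟨C⟩ := hcert N
  letI : Fintype C.V := C.fin
  have hne := C.ne
  have hs0 : 0 < s := by linarith
  have hTd : ∀ p q, ‖T (D.d p) - T (D.d q)‖ ≤ lam * dist p q := by
    intro p q
    rw [← map_sub]
    exact (T.le_opNorm _).trans (mul_le_mul hT (D.lip p q) (norm_nonneg _) hlam)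
  have h1 : ∀ v, ∃ t ∈ Submodule.span ℝ (D.d '' S N), ‖T (D.d (C.pt v)) - t‖ ≤ ε :=
    fun v => hlev _ (C.pt_mem v)
  choose t ht htv using h1
  have hpF : ∀ v e, ∃ φ : X →L[ℝ] ℝ, ‖φ‖ ≤ 1 / R ∧ ∀ p, φ (D.d p) = C.F v e p - C.F v e o :=
    fun v e => D.pair (C.F v e) (1 / R) (by positivity) (C.F_lip v e)
  choose φF hφFn hφF using hpF
  have hpg : ∀ v, v ∉ C.B → ∃ φ : X →L[ℝ] ℝ, ‖φ‖ ≤ 4 / s ∧
      ∀ p, φ (D.d p) = C.g v p - C.g v o :=
    fun v hv => D.pair (C.g v) (4 / s) (by positivity) (C.g_lip v hv)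
  have hspanU : ∀ v, t v ∈ Submodule.span ℝ (D.d '' Set.univ) := fun v =>
    Submodule.span_mono (Set.image_mono (Set.subset_univ _)) (ht v)
  have hdist : ∀ v, ‖t v - D.d (anc (C.an v))‖ ≤ lam * R + 2 * ε := by
    intro v
    have e1 : t v - D.d (anc (C.an v)) = (T (D.d (C.pt v)) - T (D.d (anc (C.an v)))) +
        ((T (D.d (anc (C.an v))) - D.d (anc (C.an v))) - (T (D.d (C.pt v)) - t v)) := by abel
    rw [e1]
    have e2 := hTd (C.pt v) (anc (C.an v))
    have e3 : lam * dist (C.pt v) (anc (C.an v)) ≤ lam * R :=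
      mul_le_mul_of_nonneg_left (C.dist_an v) hlam
    have e4 := norm_add_le (T (D.d (C.pt v)) - T (D.d (anc (C.an v))))
      ((T (D.d (anc (C.an v))) - D.d (anc (C.an v))) - (T (D.d (C.pt v)) - t v))
    have e5 := norm_sub_le (T (D.d (anc (C.an v))) - D.d (anc (C.an v))) (T (D.d (C.pt v)) - t v)
    have e6 := hTa (C.an v)
    have e7 := htv v
    linarith
  have hanti : ∀ v e, φF (C.st e v) (e.1, !e.2) (t (C.st e v)) = - φF v e (t (C.st e v)) := by
    intro v e
    have := span_eq_of D Set.univ (φF (C.st e v) (e.1, !e.2)) (-φF v e) (fun p _ => by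
      rw [neg_apply, hφF, hφF, C.F_anti, C.F_anti]
      ring) (t (C.st e v)) (hspanU _)
    rw [this, neg_apply]
  have hcard4 : (Finset.univ : Finset (Fin 2 × Bool)).card = 4 := rfl
  have hupper : ∑ v, ∑ e, φF v e (t v) ≤ 2 * Fintype.card C.V * ((lam + 2 * ε) / R) := by
    have e1 := sum_involution C.st C.st_st (fun v e => φF v e (t v))
    have e2 : 2 * ∑ v, ∑ e, φF v e (t v) = ∑ v, ∑ e, φF v e (t v - t (C.st e v)) := by
      rw [two_mul]
      nth_rewrite 2 [← e1]
      rw [← Finset.sum_add_distrib]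
      refine Finset.sum_congr rfl fun v _ => ?_
      rw [← Finset.sum_add_distrib]
      refine Finset.sum_congr rfl fun e _ => ?_
      rw [hanti, map_sub]
      ring
    have e3 : ∀ v e, φF v e (t v - t (C.st e v)) ≤ (lam + 2 * ε) / R := by
      intro v e
      have f1 : ‖t v - t (C.st e v)‖ ≤ lam + 2 * ε := by
        have g1 : t v - t (C.st e v) = (T (D.d (C.pt v)) - T (D.d (C.pt (C.st e v)))) +
            ((T (D.d (C.pt (C.st e v))) - t (C.st e v)) - (T (D.d (C.pt v)) - t v)) := by abel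
        rw [g1]
        have g2 := hTd (C.pt v) (C.pt (C.st e v))
        have g3 : lam * dist (C.pt v) (C.pt (C.st e v)) ≤ lam * 1 :=
          mul_le_mul_of_nonneg_left (C.dist_st e v) hlam
        have g4 := norm_add_le (T (D.d (C.pt v)) - T (D.d (C.pt (C.st e v))))
          ((T (D.d (C.pt (C.st e v))) - t (C.st e v)) - (T (D.d (C.pt v)) - t v))
        have g5 := norm_sub_le (T (D.d (C.pt (C.st e v))) - t (C.st e v)) (T (D.d (C.pt v)) - t v)
        have g6 := htv v
        have g7 := htv (C.st e v)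
        linarith
      have f2 := (le_abs_self _).trans ((φF v e).le_opNorm (t v - t (C.st e v)))
      refine f2.trans ?_
      calc _ ≤ (1 / R) * (lam + 2 * ε) :=
            mul_le_mul (hφFn v e) f1 (norm_nonneg _) (by positivity)
        _ = _ := by ring
    have e4 : ∑ v, ∑ e, φF v e (t v - t (C.st e v)) ≤
        ∑ _v : C.V, ∑ _e : Fin 2 × Bool, (lam + 2 * ε) / R :=
      Finset.sum_le_sum fun v _ => Finset.sum_le_sum fun e _ => e3 v e
    rw [Finset.sum_const, Finset.sum_const, hcard4, Finset.card_univ, nsmul_eq_mul,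
      nsmul_eq_mul] at e4
    push_cast at e4
    linarith
  have hzero : ∑ v, ∑ e, C.F v e o = 0 := by
    have e1 := sum_involution C.st C.st_st (fun v e => C.F v e o)
    have e2 : ∑ v, ∑ e, C.F (C.st e v) (e.1, !e.2) o = - ∑ v, ∑ e, C.F v e o := by
      rw [← Finset.sum_neg_distrib]
      refine Finset.sum_congr rfl fun v _ => ?_
      rw [← Finset.sum_neg_distrib]
      exact Finset.sum_congr rfl fun e _ => C.F_anti v e o
    rw [e2] at e1
    linarith
  set c : ℝ := lam * R + 2 * ε with hc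
  have hc0 : 0 ≤ c := by positivity
  have hlow : ∀ v, (1 - 1 / s) - ∑ e, C.F v e o - (4 / s) * c -
      (if v ∈ C.B then (4 / R) * c else 0) ≤ ∑ e, φF v e (t v) := by
    intro v
    by_cases hv : v ∈ C.B
    · rw [if_pos hv]
      have e1 : ∀ e, (C.F v e (anc (C.an v)) - C.F v e o) - (1 / R) * c ≤ φF v e (t v) := by
        intro e
        have f1 : φF v e (t v) = φF v e (D.d (anc (C.an v))) +
            φF v e (t v - D.d (anc (C.an v))) := by
          rw [map_sub]
          ring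
        have f2 := (neg_abs_le _).trans' (neg_le_neg
          ((φF v e).le_opNorm (t v - D.d (anc (C.an v)))))
        have f3 : ‖φF v e‖ * ‖t v - D.d (anc (C.an v))‖ ≤ (1 / R) * c :=
          mul_le_mul (hφFn v e) (hdist v) (norm_nonneg _) (by positivity)
        rw [f1, hφF]
        linarith
      have e2 := Finset.sum_le_sum fun e (_ : e ∈ (Finset.univ : Finset (Fin 2 × Bool))) => e1 e
      rw [Finset.sum_sub_distrib, Finset.sum_sub_distrib, C.F_val, Finset.sum_const, hcard4,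
        nsmul_eq_mul] at e2
      push_cast at e2
      have e3 : 0 ≤ (4 / s) * c := by positivity
      have e4 : (4 / R) * c = 4 * ((1 / R) * c) := by ring
      linarith
    · rw [if_neg hv, sub_zero]
      obtain ⟨φ, hφn, hφ⟩ := hpg v hv
      have e1 : ∑ e, φF v e (t v) = φ (t v) := by
        have := span_eq_of D (S N) (∑ e, φF v e) φ (fun p hp => by
          rw [sum_apply, hφ, C.g_eq v hv p hp, C.g_eq v hv o hoN,
            ← Finset.sum_sub_distrib]
          exact Finset.sum_congr rfl fun e _ => hφF v e p) (t v) (ht v)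
        rw [← this, sum_apply]
      have f1 : φ (t v) = φ (D.d (anc (C.an v))) + φ (t v - D.d (anc (C.an v))) := by
        rw [map_sub]
        ring
      have f2 := (neg_abs_le _).trans' (neg_le_neg (φ.le_opNorm (t v - D.d (anc (C.an v)))))
      have f3 : ‖φ‖ * ‖t v - D.d (anc (C.an v))‖ ≤ (4 / s) * c :=
        mul_le_mul hφn (hdist v) (norm_nonneg _) (by positivity)
      rw [e1, f1, hφ, C.g_eq v hv _ (C.anc_mem _), C.g_eq v hv o hoN, C.F_val]
      linarith
  have hsum := Finset.sum_le_sum fun v (_ : v ∈ (Finset.univ : Finset C.V)) => hlow v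
  rw [Finset.sum_sub_distrib, Finset.sum_sub_distrib, Finset.sum_sub_distrib, hzero,
    Finset.sum_const, Finset.sum_const, Finset.card_univ, nsmul_eq_mul, nsmul_eq_mul,
    ← Finset.sum_filter, Finset.sum_const, nsmul_eq_mul, Finset.filter_mem_eq_inter,
    Finset.univ_inter] at hsum
  have hV : (0 : ℝ) < Fintype.card C.V := by exact_mod_cast Fintype.card_pos
  have hB : (C.B.card : ℝ) * ((4 / R) * c) ≤ (η * Fintype.card C.V) * ((4 / R) * c) :=
    mul_le_mul_of_nonneg_right C.B_card (by positivity)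
  have hfinal : (Fintype.card C.V : ℝ) * (1 - 1 / s) ≤ (Fintype.card C.V : ℝ) *
      (2 * (lam + 2 * ε) / R + (4 / s) * c + η * (4 / R) * c) := by
    have : (Fintype.card C.V : ℝ) *
      (2 * (lam + 2 * ε) / R + (4 / s) * c + η * (4 / R) * c) =
      2 * Fintype.card C.V * ((lam + 2 * ε) / R) + Fintype.card C.V * ((4 / s) * c) +
      (η * Fintype.card C.V) * ((4 / R) * c) := by ring
    rw [this]
    linarith
  exact le_of_mul_le_mul_left hfinal hV

end

end Vale.Agent.P090
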