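import Mathlib
import Vale.Agent.P090.FA

namespace Vale.Agent.P090

section

variable {M : Type} [MetricSpace M]

lemma evalAt_apply (o x : M) (f : Lip0 M o) : evalAt o x f = f x := rfl

noncomputable def dl (o x : M) : ↥(LipschitzFree M o) :=
  ⟨evalAt o x, Submodule.le_topologicalClosure _ (Submodule.subset_span ⟨x, rfl⟩)⟩

lemma dl_lip (o p q : M) : ‖dl o p - dl o q‖ ≤ dist p q := by
  change ‖evalAt o p - evalAt o q‖ ≤ dist p q
  refine ContinuousLinearMap.opNorm_le_bound _ dist_nonneg fun f => ?_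
  have h := f.abs_sub_le p q
  rw [mul_comm]
  exact h

lemma dl_base (o : M) : dl o o = 0 := by
  apply Subtype.ext
  change evalAt o o = 0
  ext f
  exact f.base

lemma dl_dense (o : M) (x : ↥(LipschitzFree M o)) :
    x ∈ closure (Submodule.span ℝ (Set.range (dl o)) : Set ↥(LipschitzFree M o)) := by
  rw [Metric.mem_closure_iff]
  intro ε hε
  have hx : (x : StrongDual ℝ (Lip0 M o)) ∈
      closure (Submodule.span ℝ (Set.range (evalAt o)) : Set (StrongDual ℝ (Lip0 M o))) := x.2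
  obtain ⟨z, hz, hxz⟩ := Metric.mem_closure_iff.1 hx ε hε
  have h1 : Submodule.map (LipschitzFree M o).subtype (Submodule.span ℝ (Set.range (dl o))) =
      Submodule.span ℝ (Set.range (evalAt o)) := by
    rw [Submodule.map_span]
    congr 1
    rw [← Set.range_comp]
    rfl
  have hz' : z ∈ Submodule.span ℝ (Set.range (evalAt o)) := hz
  rw [← h1] at hz'
  obtain ⟨y, hy, rfl⟩ := hz'
  exact ⟨y, hy, hxz⟩

noncomputable def lift0 (o : M) (h : M → ℝ) (K : ℝ) (hK : 0 ≤ K)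
    (hh : ∀ p q, |h p - h q| ≤ K * dist p q) : Lip0 M o :=
  ⟨fun p => h p - h o, by
    refine ⟨sub_self _, ⟨⟨K, hK⟩, ?_⟩⟩
    refine LipschitzWith.of_dist_le_mul fun p q => ?_
    rw [Real.dist_eq, sub_sub_sub_cancel_right]
    exact hh p q⟩

lemma lift0_apply (o : M) (h : M → ℝ) (K : ℝ) (hK : 0 ≤ K)
    (hh : ∀ p q, |h p - h q| ≤ K * dist p q) (p : M) : lift0 o h K hK hh p = h p - h o := rfl

lemma norm_lift0 (o : M) (h : M → ℝ) (K : ℝ) (hK : 0 ≤ K)
    (hh : ∀ p q, |h p - h q| ≤ K * dist p q) : ‖lift0 o h K hK hh‖ ≤ K := by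
  refine Lip0.norm_le_of _ hK fun p q => ?_
  rw [lift0_apply, lift0_apply, sub_sub_sub_cancel_right]
  exact hh p q

noncomputable def pairLin (o : M) (f : Lip0 M o) : ↥(LipschitzFree M o) →ₗ[ℝ] ℝ where
  toFun := fun μ => (μ : StrongDual ℝ (Lip0 M o)) f
  map_add' := fun _ _ => rfl
  map_smul' := fun _ _ => rfl

lemma pairLin_bound (o : M) (f : Lip0 M o) (K : ℝ) (hf : ‖f‖ ≤ K) (μ : ↥(LipschitzFree M o)) :
    ‖pairLin o f μ‖ ≤ K * ‖μ‖ := by
  have h1 := (μ : StrongDual ℝ (Lip0 M o)).le_opNorm f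
  refine h1.trans ?_
  rw [mul_comm K]
  exact mul_le_mul_of_nonneg_left hf (norm_nonneg _)

noncomputable def freeLike (o : M) : FreeLike o ↥(LipschitzFree M o) where
  d := dl o
  lip := dl_lip o
  base := dl_base o
  dense := dl_dense o
  pair := fun h K hK hh =>
    ⟨LinearMap.mkContinuous (pairLin o (lift0 o h K hK hh)) K
      (pairLin_bound o _ K (norm_lift0 o h K hK hh)),
      LinearMap.mkContinuous_norm_le _ hK _, fun _ => rfl⟩

end

theorem not_hasBAP {M : Type} [MetricSpace M] (o : M) {X : Type} [NormedAddCommGroup X]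
    [NormedSpace ℝ X] (D : FreeLike o X)
    (hcert : ∀ r : ℕ, 2 ≤ r → ∃ (A : Type) (_ : Finite A) (anc : A → M) (P : Set M)
      (S : ℕ → Set M), Bornology.IsBounded P ∧ Monotone S ∧ (∀ p, ∃ N, p ∈ S N) ∧
      ∀ N, Nonempty (Cert P (S N) anc (r : ℝ) ((r : ℝ) ^ 2) (1 / (r : ℝ)))) :
    ¬ HasBAP X := by
  rintro ⟨lam, hlam, hbap⟩
  obtain ⟨r, hr⟩ := exists_nat_ge (100 * (lam + 1))
  have hr2 : 2 ≤ r := by
    have : (2 : ℝ) ≤ r := by linarith
    exact_mod_cast this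
  obtain ⟨A, hA, anc, P, S, hP, hS, hSU, hC⟩ := hcert r hr2
  have hcomp : IsCompact (Set.range fun a => D.d (anc a)) := (Set.finite_range _).isCompact
  obtain ⟨T, hT1, hT2, hT3⟩ := hbap _ hcomp 1 one_pos
  have hr0 : (0 : ℝ) < r := by linarith
  have hr1 : (1 : ℝ) ≤ (r : ℝ) ^ 2 := one_le_pow₀ (by linarith)
  have h := cert_ineq o D anc P hP S hS hSU (r : ℝ) ((r : ℝ) ^ 2) (1 / (r : ℝ)) lam 1 hr0 hr1
    (by linarith) one_pos hC T hT1 hT2 (fun a => (hT3 _ ⟨a, rfl⟩).le)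
  have e1 : 2 * (lam + 2 * 1) / (r : ℝ) + (4 / (r : ℝ) ^ 2) * (lam * r + 2 * 1)
      + 1 / (r : ℝ) * (4 / (r : ℝ)) * (lam * r + 2 * 1) =
      (10 * lam + 4) / r + 16 / (r : ℝ) ^ 2 := by
    field_simp
    ring
  rw [e1] at h
  have e2 : (10 * lam + 4) / (r : ℝ) ≤ 1 / 4 := by
    rw [div_le_iff₀ hr0]
    linarith
  have e3 : 16 / (r : ℝ) ^ 2 ≤ 1 / 4 := by
    rw [div_le_iff₀ (by positivity)]
    nlinarith
  have e4 : 1 / (r : ℝ) ^ 2 ≤ 1 / 4 := by
    rw [div_le_iff₀ (by positivity)]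
    nlinarith
  linarith

end Vale.Agent.P090
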