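import Mathlib
import Vale.Agent.P090.EllDefs
import Vale.Agent.P090.FA2

namespace Vale.Agent.P090.Ell

section general

variable {M : Type} {E : Type} [NormedAddCommGroup E] [NormedSpace ℝ E]

noncomputable def dlg (δ : M → E) (x : M) : ↥(Submodule.span ℝ (Set.range δ)).topologicalClosure :=
  ⟨δ x, Submodule.le_topologicalClosure _ (Submodule.subset_span ⟨x, rfl⟩)⟩

lemma dlg_dense (δ : M → E) (x : ↥(Submodule.span ℝ (Set.range δ)).topologicalClosure) :
    x ∈ closure (Submodule.span ℝ (Set.range (dlg δ)) : Set ↥(Submodule.span ℝ (Set.range δ)).topologicalClosure) := by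
  rw [Metric.mem_closure_iff]
  intro ε hε
  have hx : (x : E) ∈ closure (Submodule.span ℝ (Set.range δ) : Set E) := x.2
  obtain ⟨z, hz, hxz⟩ := Metric.mem_closure_iff.1 hx ε hε
  have h1 : Submodule.map (Submodule.span ℝ (Set.range δ)).topologicalClosure.subtype
      (Submodule.span ℝ (Set.range (dlg δ))) = Submodule.span ℝ (Set.range δ) := by
    rw [Submodule.map_span]
    congr 1
    rw [← Set.range_comp]
    rfl
  have hz' : z ∈ Submodule.span ℝ (Set.range δ) := hz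
  rw [← h1] at hz'
  obtain ⟨y, hy, rfl⟩ := hz'
  exact ⟨y, hy, hxz⟩

lemma pair_restrict (p : Submodule ℝ E) (φ : E →L[ℝ] ℝ) (K : ℝ) (hK : 0 ≤ K) (h : ‖φ‖ ≤ K) :
    ∃ ψ : ↥p →L[ℝ] ℝ, ‖ψ‖ ≤ K ∧ ∀ x : ↥p, ψ x = φ x := by
  refine ⟨φ.comp p.subtypeL, ?_, fun x => rfl⟩
  refine ContinuousLinearMap.opNorm_le_bound _ hK fun x => ?_
  exact (φ.le_opNorm _).trans (mul_le_mul_of_nonneg_right h (norm_nonneg _))

noncomputable def freeLikeg [MetricSpace M] (δ : M → E) (o : M) (hlip : ∀ p q, ‖δ p - δ q‖ ≤ dist p q)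
    (hbase : δ o = 0)
    (hpair : ∀ (h : M → ℝ) (K : ℝ), 0 ≤ K → (∀ p q, |h p - h q| ≤ K * dist p q) →
      ∃ φ : E →L[ℝ] ℝ, ‖φ‖ ≤ K ∧ ∀ p, φ (δ p) = h p - h o) :
    FreeLike o (ClosedSpan (Set.range δ)) where
  d := dlg δ
  lip := hlip
  base := Subtype.ext hbase
  dense := dlg_dense δ
  pair := fun h K hK hh => by
    obtain ⟨φ, hφ, hφ2⟩ := hpair h K hK hh
    obtain ⟨ψ, hψ, hψ2⟩ := pair_restrict (Submodule.span ℝ (Set.range δ)).topologicalClosure φ K hK hφ
    exact ⟨ψ, hψ, fun p => (hψ2 _).trans (hφ2 p)⟩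

end general

variable {M : Type} [MetricSpace M]

lemma delta_lip (o p q : M) : ‖delta o p - delta o q‖ ≤ dist p q := by
  refine lp.norm_le_of_forall_le dist_nonneg fun f => ?_
  exact f.2.2 p q

lemma delta_base (o : M) : delta o o = 0 := by
  apply lp.ext
  funext f
  exact f.2.1

noncomputable def coordLin (I : Type) (i : I) (K : ℝ) : BoundedFamilies I →ₗ[ℝ] ℝ where
  toFun := fun μ => K * μ i
  map_add' := fun μ ν => by
    change K * (μ i + ν i) = _
    rw [mul_add]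
  map_smul' := fun c μ => by
    change K * (c * μ i) = _
    simp only [RingHom.id_apply, smul_eq_mul]
    ring

lemma coordLin_bound (I : Type) (i : I) (K : ℝ) (hK : 0 ≤ K) (μ : BoundedFamilies I) :
    ‖coordLin I i K μ‖ ≤ K * ‖μ‖ := by
  change ‖K * μ i‖ ≤ _
  rw [norm_mul, Real.norm_of_nonneg hK]
  exact mul_le_mul_of_nonneg_left (lp.norm_apply_le_norm ENNReal.top_ne_zero μ i) hK

lemma pair (o : M) (h : M → ℝ) (K : ℝ) (hK : 0 ≤ K)
    (hh : ∀ p q, |h p - h q| ≤ K * dist p q) :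
    ∃ φ : BoundedFamilies (UnitBallLip0 M o) →L[ℝ] ℝ,
      ‖φ‖ ≤ K ∧ ∀ p, φ (delta o p) = h p - h o := by
  rcases hK.eq_or_lt with h0 | h0
  · refine ⟨0, ?_, fun p => ?_⟩
    · refine ContinuousLinearMap.opNorm_le_bound _ hK fun μ => ?_
      change ‖(0 : ℝ)‖ ≤ _
      rw [norm_zero]
      exact mul_nonneg hK (norm_nonneg _)
    · have h1 := hh p o
      rw [← h0, zero_mul] at h1
      rw [abs_nonpos_iff.1 h1]
      rfl
  · have hf : (h o - h o) / K = 0 ∧
        ∀ x y, |(h x - h o) / K - (h y - h o) / K| ≤ dist x y := by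
      refine ⟨?_, fun x y => ?_⟩
      · simp
      · rw [← sub_div, sub_sub_sub_cancel_right, abs_div, abs_of_pos h0, div_le_iff₀ h0, mul_comm]
        exact hh x y
    refine ⟨LinearMap.mkContinuous (coordLin _ ⟨fun p => (h p - h o) / K, hf⟩ K) K
      (coordLin_bound _ _ K hK), LinearMap.mkContinuous_norm_le _ hK _, fun p => ?_⟩
    change K * ((h p - h o) / K) = h p - h o
    field_simp

noncomputable def freeLike (o : M) : FreeLike o (LipschitzFree M o) :=
  freeLikeg (delta o) o (delta_lip o) (delta_base o) (pair o)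

end Vale.Agent.P090.Ell
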