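import Mathlib
import Vale.Agent.P090.DualDefs
import Vale.Agent.P090.FA2
import Vale.Agent.P090.EllFree

namespace Vale.Agent.P090.Dual

variable {M : Type} [MetricSpace M]

lemma evalAt_lip (o p q : M) : ‖evalAt o p - evalAt o q‖ ≤ dist p q := by
  refine ContinuousLinearMap.opNorm_le_bound _ dist_nonneg fun f => ?_
  have h := abs_sub_le_lipConst f p q
  rw [mul_comm]
  exact h

lemma evalAt_base (o : M) : evalAt o o = 0 := by
  ext f
  exact f.2.1

def lift0 (o : M) (h : M → ℝ) (K : ℝ) (hh : ∀ p q, |h p - h q| ≤ K * dist p q) : Lip0 M o :=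
  ⟨fun p => h p - h o, by
    refine ⟨sub_self _, K, fun x y => ?_⟩
    rw [sub_sub_sub_cancel_right]
    exact hh x y⟩

lemma norm_lift0 (o : M) (h : M → ℝ) (K : ℝ) (hK : 0 ≤ K)
    (hh : ∀ p q, |h p - h q| ≤ K * dist p q) : ‖lift0 o h K hh‖ ≤ K := by
  refine lipConst_le _ hK fun x y => ?_
  change |(h x - h o) - (h y - h o)| ≤ _
  rw [sub_sub_sub_cancel_right]
  exact hh x y

lemma pair (o : M) (h : M → ℝ) (K : ℝ) (hK : 0 ≤ K)
    (hh : ∀ p q, |h p - h q| ≤ K * dist p q) :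
    ∃ φ : StrongDual ℝ (Lip0 M o) →L[ℝ] ℝ, ‖φ‖ ≤ K ∧ ∀ p, φ (evalAt o p) = h p - h o := by
  refine ⟨ContinuousLinearMap.apply ℝ ℝ (lift0 o h K hh), ?_, fun p => rfl⟩
  refine ContinuousLinearMap.opNorm_le_bound _ hK fun μ => ?_
  rw [mul_comm]
  exact (μ.le_opNorm _).trans (mul_le_mul_of_nonneg_left (norm_lift0 o h K hK hh) (norm_nonneg _))

noncomputable def freeLike (o : M) : FreeLike o (LipschitzFree M o) :=
  Ell.freeLikeg (evalAt o) o (evalAt_lip o) (evalAt_base o) (pair o)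

end Vale.Agent.P090.Dual
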