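import Mathlib
import Vale.Agent.P090.CertMk

namespace Vale.Agent.P090

lemma SS_mono : Monotone SS := fun _ _ h _ hp => le_trans hp h

lemma SS_union (p : Pt) : ∃ N, p ∈ SS N := ⟨lvl p.2, le_refl (lvl p.2)⟩

def bpt (k : ℕ) : Pt := ⟨k, an 1⟩

lemma part_bounded (k : ℕ) : Bornology.IsBounded {p : Pt | p.1 = k} := by
  refine (Metric.isBounded_iff_subset_closedBall (bpt k)).2
    ⟨((k + 1 : ℕ) + sz k : ℝ), ?_⟩
  rintro ⟨l, q⟩ hl
  have hl' : l = k := hl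
  subst hl'
  change ds (⟨l, q⟩ : Pt) (bpt l) ≤ _
  refine ds_le fun f hf => ?_
  have h1 := (hf.part l).base zero_le_one q
  rw [one_mul] at h1
  exact h1

theorem cert_family (r : ℕ) (hr : 2 ≤ r) : ∃ (A : Type) (_ : Finite A) (anc : A → Pt) (P : Set Pt)
      (S : ℕ → Set Pt), Bornology.IsBounded P ∧ Monotone S ∧ (∀ p, ∃ N, p ∈ S N) ∧
      ∀ N, Nonempty (Cert P (S N) anc (r : ℝ) ((r : ℝ) ^ 2) (1 / (r : ℝ))) := by
  obtain ⟨k, rfl⟩ : ∃ k, r = k + 1 := ⟨r - 1, by omega⟩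
  refine ⟨AA (sz k), inferInstance, fun a => ⟨k, an a⟩, {p : Pt | p.1 = k}, SS, part_bounded k,
    SS_mono, SS_union, fun N => ?_⟩
  have h := cert_exists k N
  have hs : (sz k : ℝ) = ((k + 1 : ℕ) : ℝ) ^ 2 := by
    unfold sz
    push_cast
    ring
  rw [hs] at h
  exact h

end Vale.Agent.P090
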